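import Vale.Agent.P297.H777.Z2.Plane
import Vale.Agent.P297.H212.Z2.Inst

/-!
General numerical Godeaux surfaces with torsion of order two: a line through a node and the four
lines through another node in the same plane which meet it.
-/

set_option linter.unusedSectionVars false
set_option linter.unusedVariables false
set_option linter.style.haveILetI false
set_option linter.unusedSimpArgs false

open Polynomial

namespace Vale.Agent.P297.H777.Z2

open Vale.Agent.P297 Vale.Agent.P297.Gen Vale.Agent.P297.H72 Vale.Agent.P297.H637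
open Vale.Agent.P297.H160.Z2Irr Vale.Agent.P297.Z2 Vale.Agent.P297.H65

section base

variable {K N : Type} [Field K] [Algebra ℂ K] [Field N] [Algebra ℂ N] [IsAlgClosed N]
  {P : Par} {x₀ : Fin 5 → K} {l al be al₂ be₂ p r s s' δ : N}

theorem al_meet (h12 : al ≠ al₂) (z : N) :
    al₂ * (yp al al₂ p).eval z + z = al * (yp al al₂ p).eval z + p := by
  have hne : al₂ - al ≠ 0 := sub_ne_zero.2 h12.symm
  rw [eval_yp]
  have e0 : (al₂ - al) * ((p - z) / (al₂ - al)) = p - z := mul_div_cancel₀ _ hne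
  linear_combination e0

theorem be_meet (hd : be - al = 1 - l) (hd₂ : be₂ - al₂ = 1 - l) (h12 : al ≠ al₂) (z : N) :
    -be₂ * (yp al al₂ p).eval z + (p + r - z) = -be * (yp al al₂ p).eval z + r := by
  have h := al_meet (p := p) h12 z
  linear_combination -h + (yp al al₂ p).eval z * hd - (yp al al₂ p).eval z * hd₂

theorem eval_base (L : NLine P l al be p r s s') (hd₂ : be₂ - al₂ = 1 - l) (h12 : al ≠ al₂)
    (hδ : δ ≠ 0) (z : N) :
    (secP P l al₂ be₂ (p + r) (C δ * yp al al₂ p) (C δ)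
      (C δ * (C s * yp al al₂ p + C s'))).eval z =
      δ ^ 9 * (H55Z.cP P l al be p r s s').eval ((yp al al₂ p).eval z) := by
  rw [eval_secP, eval_C, secF_eq P hd₂ _ _ _ _ hδ]
  simp only [eval_mul, eval_add, eval_C, mul_div_cancel_left₀ _ hδ]
  rw [al_meet h12, be_meet L.node.sub hd₂ h12]
  unfold H55Z.cP
  rw [eval_tPhi]
  simp only [eval_add, eval_mul, eval_C, eval_X]

theorem base (hc : NC P) (hD9 : H55Z.Deg9 P) (hl : Transcendental ℂ l)
    (L : NLine P l al be p r s s') (hd₂ : be₂ - al₂ = 1 - l) (h12 : al ≠ al₂) (hδ : δ ≠ 0) :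
    (secP P l al₂ be₂ (p + r) (C δ * yp al al₂ p) (C δ)
      (C δ * (C s * yp al al₂ p + C s'))).natDegree = 9 ∧
    secCyc P x₀ l al₂ be₂ (p + r) (C δ * yp al al₂ p) (C δ)
      (C δ * (C s * yp al al₂ p + C s')) = ncyc P x₀ l al be p r s s' := by
  have hne : al₂ - al ≠ 0 := sub_ne_zero.2 h12.symm
  have hm : ∀ w : N, (-(δ / (al₂ - al)) * w + δ * p / (al₂ - al)) / (0 * w + δ) =
      (yp al al₂ p).eval w := by
    intro w
    rw [eval_yp, zero_mul, zero_add, div_eq_iff hδ]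
    field_simp
    ring
  obtain ⟨h1, h2, h3, -⟩ := roots_moebius (Q := H55Z.cP P l al be p r s s')
    (R := secP P l al₂ be₂ (p + r) (C δ * yp al al₂ p) (C δ)
      (C δ * (C s * yp al al₂ p + C s'))) (d := 9)
    (H55Z.cP_ne hc hD9 hl L.node) (H55Z.cP_natDegree hc hD9 hl L.node)
    (α := -(δ / (al₂ - al))) (β := δ * p / (al₂ - al)) (γ := 0) (δ := δ)
    (by
      rw [mul_zero, sub_zero]
      exact mul_ne_zero (neg_ne_zero.2 (div_ne_zero hδ hne)) hδ)
    (by
      intro w _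
      rw [hm, zero_mul, zero_add]
      exact eval_base L hd₂ h12 hδ w)
    (fun h => absurd rfl h)
  refine ⟨h2, ?_⟩
  have e2 : ncyc P x₀ l al be p r s s' = ((H55Z.cP P l al be p r s s').roots.map fun y =>
      H160.Z2Irr.pt x₀ (toS P l (al * y + p) (-be * y + r) y (s * y + s'))).sum := by
    unfold ncyc Vale.Agent.P297.Z2.cyc
    unfold H55Z.cP
    congr 1
    refine Multiset.map_congr rfl fun y _ => ?_
    simp only [eval_add, eval_mul, eval_C, eval_X]
  rw [e2, h3, Multiset.map_map]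
  unfold secCyc
  congr 1
  refine Multiset.map_congr rfl fun z _ => ?_
  simp only [Function.comp_apply, hm]
  unfold secPt
  simp only [eval_mul, eval_add, eval_C, mul_div_cancel_left₀ _ hδ]
  rw [al_meet h12, be_meet L.node.sub hd₂ h12]

end base

section fin

variable {N : Type} [Field N] [IsAlgClosed N] [DecidableEq N]

theorem prod_roots_fin {D : N[X]} (hnd : D.roots.Nodup) :
    D = (∏ c ∈ D.roots.toFinset, (X - C c)) * C D.leadingCoeff := by
  have h := (IsAlgClosed.splits D).eq_prod_roots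
  have e : ∏ c ∈ D.roots.toFinset, (X - C c) = (D.roots.map fun a => X - C a).prod := by
    rw [Finset.prod_eq_multiset_prod, Multiset.toFinset_val, hnd.dedup]
  rw [e, mul_comm]
  exact h

theorem card_roots_fin {D : N[X]} (hnd : D.roots.Nodup) {d : ℕ} (hd : D.natDegree = d) :
    D.roots.toFinset.card = d := by
  rw [Multiset.toFinset_card_of_nodup hnd, ← hd]
  exact (splits_iff_card_roots).1 (IsAlgClosed.splits D)

theorem sum_fin {A : Type*} [AddCommMonoid A] {m : Multiset N} (hnd : m.Nodup) (f : N → A) :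
    ∑ x ∈ m.toFinset, f x = (m.map f).sum := by
  rw [Finset.sum_eq_multiset_sum, Multiset.toFinset_val, hnd.dedup]

end fin

section one

variable {K N : Type} [Field K] [Algebra ℂ K] [Field N] [Algebra ℂ N] [IsAlgClosed N]
  {P : Par} {x₀ : Fin 5 → K} {l al be al₂ be₂ p r s s' p₁ s₁ s₁' : N}

/-- the slope of the degenerate member -/
noncomputable def th (al al₂ p s s' p₁ s₁ s₁' : N) : N[X] :=
  C ((p - p₁) / (al₂ - al))⁻¹ *
    ((C s * yp al al₂ p + C s') - (C s₁ * yp al al₂ p₁ + C s₁'))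

/-- the constants of the family -/
noncomputable def cst (P : Par) (l al al₂ be₂ W p₁ s₁ s₁' : N) : Fin 13 → N :=
  ![l, al₂, be₂, W, (yp al al₂ p₁).coeff 0, (yp al al₂ p₁).coeff 1,
    (C s₁ * yp al al₂ p₁ + C s₁').coeff 0, (C s₁ * yp al al₂ p₁ + C s₁').coeff 1,
    ((planeCub P l W).p2 al₂).coeff 0, ((planeCub P l W).p2 al₂).coeff 1,
    ((planeCub P l W).p3 al₂ + 2 * (planeCub P l W).p2 al₂ * yp al al₂ p₁).coeff 0,
    ((planeCub P l W).p3 al₂ + 2 * (planeCub P l W).p2 al₂ * yp al al₂ p₁).coeff 1,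
    ((planeCub P l W).p3 al₂ + 2 * (planeCub P l W).p2 al₂ * yp al al₂ p₁).coeff 2]

theorem natDegree_th : (th al al₂ p s s' p₁ s₁ s₁').natDegree ≤ 1 := by
  unfold th
  refine (natDegree_C_mul_le _ _).trans ?_
  have h : ∀ a b t : N, (C a * yp al al₂ t + C b).natDegree ≤ 1 := by
    intro a b t
    refine (natDegree_add_le _ _).trans (max_le ?_ (by rw [natDegree_C]; omega))
    exact (natDegree_C_mul_le _ _).trans natDegree_yp
  exact (natDegree_sub_le _ _).trans (max_le (h _ _ _) (h _ _ _))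

variable [CharZero N]

/-- **The facts about the two tangent lines.** -/
theorem th_facts (hM : P.M1 = 0) {W : N} (L : NLine P l al be p (W - p) s s')
    (L₁ : NLine P l al be p₁ (W - p₁) s₁ s₁') (hn : IsNode P l al₂ be₂) (h12 : al ≠ al₂)
    (hp : p ≠ p₁) :
    (planeCub P l W).p3 al₂ + 2 * (planeCub P l W).p2 al₂ * yp al al₂ p₁ -
        2 * (C s₁ * yp al al₂ p₁ + C s₁') * th al al₂ p s s' p₁ s₁ s₁' =
      C ((p - p₁) / (al₂ - al)) *
        (th al al₂ p s s' p₁ s₁ s₁' ^ 2 - (planeCub P l W).p2 al₂) ∧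
    (planeCub P l W).disc al₂ = C ((p - p₁) / (al₂ - al)) ^ 2 *
      ((th al al₂ p s s' p₁ s₁ s₁' ^ 2 - (planeCub P l W).p2 al₂) *
        (th al al₂ p (-s) (-s') p₁ s₁ s₁' ^ 2 - (planeCub P l W).p2 al₂)) ∧
    C s * yp al al₂ p + C s' = C s₁ * yp al al₂ p₁ + C s₁' +
      C ((p - p₁) / (al₂ - al)) * th al al₂ p s s' p₁ s₁ s₁' := by
  have hκ : (p - p₁) / (al₂ - al) ≠ 0 :=
    div_ne_zero (sub_ne_zero.2 hp) (sub_ne_zero.2 h12.symm)
  have h : (C ((p - p₁) / (al₂ - al)) : N[X]) * C ((p - p₁) / (al₂ - al))⁻¹ = 1 := by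
    rw [← C_mul, mul_inv_cancel₀ hκ, C_1]
  have h1 := pol_eq hM L₁ hn h12
  have h2 := pol_eq hM L hn h12
  have hy : yp al al₂ p = yp al al₂ p₁ + C ((p - p₁) / (al₂ - al)) := yp_add p p₁
  have h2' := h2
  rw [hy] at h2'
  rw [← hy] at h2'
  have h3 : (planeCub P l W).p2 al₂ * (yp al al₂ p₁ + C ((p - p₁) / (al₂ - al))) ^ 2 +
      (planeCub P l W).p3 al₂ * (yp al al₂ p₁ + C ((p - p₁) / (al₂ - al))) +
      (planeCub P l W).p4 = (C s * yp al al₂ p + C s') ^ 2 := by
    rw [← hy]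
    exact h2
  refine ⟨alg_one h1 h3 h, ?_, ?_⟩
  · have h4 := alg_two h1 h3 h
    have h5 : (C (-s) * yp al al₂ p + C (-s') : N[X]) = -(C s * yp al al₂ p + C s') := by
      rw [C_neg, C_neg]
      ring
    unfold Cub.disc th
    rw [h5]
    exact h4
  · unfold th
    linear_combination (-((C s * yp al al₂ p + C s') - (C s₁ * yp al al₂ p₁ + C s₁'))) * h

/-- the lines over the roots -/
theorem line_root (hM : P.M1 = 0) {W : N} (L : NLine P l al be p (W - p) s s')
    (L₁ : NLine P l al be p₁ (W - p₁) s₁ s₁') (hn : IsNode P l al₂ be₂) (h12 : al ≠ al₂)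
    (hp : p ≠ p₁) {c : N}
    (h0 : (th al al₂ p s s' p₁ s₁ s₁' ^ 2 - (planeCub P l W).p2 al₂).eval c = 0) :
    NLine P l al₂ be₂ c (W - c) ((th al al₂ p s s' p₁ s₁ s₁').eval c)
      ((C s₁ * yp al al₂ p₁ + C s₁').eval c -
        (th al al₂ p s s' p₁ s₁ s₁').eval c * (yp al al₂ p₁).eval c) ∧
    b3 (planeCub P l W) al al₂ p c = 2 * (th al al₂ p s s' p₁ s₁ s₁').eval c *
      (C s * yp al al₂ p + C s').eval c := by
  obtain ⟨e1, -, e3⟩ := th_facts hM L L₁ hn h12 hp
  have h1 := congrArg (eval c) (pol_eq hM L₁ hn h12)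
  have h2 := congrArg (eval c) e1
  rw [eval_mul, h0, mul_zero] at h2
  have h3 := congrArg (eval c) e3
  have h4 := congrArg (eval c) (yp_add (al := al) (al₂ := al₂) p p₁)
  simp only [eval_add, eval_sub, eval_mul, eval_pow, eval_ofNat, eval_C, Cub.eval_p2,
    Cub.eval_p3, Cub.eval_p4] at h0 h1 h2 h3 h4 ⊢
  refine ⟨nl_of hM hn ?_ ?_ ?_, ?_⟩
  · linear_combination -h0
  · linear_combination h2 + 2 * (yp al al₂ p₁).eval c * h0
  · linear_combination h1 - (yp al al₂ p₁).eval c * h2 - (yp al al₂ p₁).eval c ^ 2 * h0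
  · unfold b3
    rw [← eval_yp, h3, h4]
    linear_combination h2 + (-2 * ((p - p₁) / (al₂ - al))) * h0

end one

section main

variable {K N : Type} [Field K] [Algebra ℂ K] [Field N] [Algebra ℂ N] [IsAlgClosed N]
  [DecidableEq N] {P : Par} {x₀ : Fin 5 → K} {l al be al₂ be₂ p r s s' p₁ s₁ s₁' : N}

theorem gen_c (W c : N) (hW : W ∉ cl0 ({l} : Set N)) :
    c ∉ cl0 ({l} : Set N) ∨ W - c ∉ cl0 ({l} : Set N) := by
  by_contra hcon
  push Not at hcon
  apply hW
  have := add_mem hcon.1 hcon.2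
  rwa [add_sub_cancel] at this

/-- **A degenerate member of the family.** -/
theorem one_end (hx : H160.Z2Irr.IsFF P x₀) (hM : P.M1 = 0) (hc : NC P) (hD9 : H55Z.Deg9 P)
    (h9 : H55Z.Good9 P N) (hl : Transcendental ℂ l) (L : NLine P l al be p r s s')
    (hn : IsNode P l al₂ be₂) (h12 : al ≠ al₂) (hg : p ∉ cl0 ({l} : Set N) ∨ r ∉ cl0 ({l} : Set N))
    (hW : p + r ∉ cl0 ({l} : Set N)) (hp : p ≠ p₁) (L₁ : NLine P l al be p₁ (p + r - p₁) s₁ s₁')
    (hdeg : (th al al₂ p s s' p₁ s₁ s₁' ^ 2 - (planeCub P l (p + r)).p2 al₂).natDegree = 2)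
    (hnd : (th al al₂ p s s' p₁ s₁ s₁' ^ 2 - (planeCub P l (p + r)).p2 al₂).roots.Nodup)
    (hq : ∀ c ∈ (th al al₂ p s s' p₁ s₁ s₁' ^ 2 - (planeCub P l (p + r)).p2 al₂).roots,
      (C s * yp al al₂ p + C s').eval c ≠ 0)
    (N₁ : Type) [Field N₁] [Algebra ℂ N₁] [Algebra N N₁] [IsScalarTower ℂ N N₁] [IsAlgClosed N₁]
    (V : Plc N N₁) (ε : N₁) (y : Fin 2 → N₁) (hε0 : ε ≠ 0) (hε : V.Val ε 0)
    (hy : ∀ i, V.Val (y i) ((![1, 0] : Fin 2 → N) i)) :
    (Vf P x₀ N₁ (fun i => algebraMap N N₁ (cst P l al al₂ be₂ (p + r) p₁ s₁ s₁' i))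
      (fun i => algebraMap N N₁ ((![(th al al₂ p s s' p₁ s₁ s₁').coeff 0,
        (th al al₂ p s s' p₁ s₁ s₁').coeff 1] : Fin 2 → N) i) + ε * y i),
      ncyc P x₀ l al be p r s s' +
        ∑ c ∈ (th al al₂ p s s' p₁ s₁ s₁' ^ 2 - (planeCub P l (p + r)).p2 al₂).roots.toFinset,
          ncyc P x₀ l al₂ be₂ c (p + r - c) ((th al al₂ p s s' p₁ s₁ s₁').eval c)
            ((C s₁ * yp al al₂ p₁ + C s₁').eval c -
              (th al al₂ p s s' p₁ s₁ s₁').eval c * (yp al al₂ p₁).eval c)) ∈ SpecC K V := by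
  haveI : CharZero N := charZero_of_injective_algebraMap (algebraMap ℂ N).injective
  set θ := th al al₂ p s s' p₁ s₁ s₁' with hθ
  set A2 := (planeCub P l (p + r)).p2 al₂ with hA2
  set δ := (θ ^ 2 - A2).leadingCoeff with hδ
  have hL' : NLine P l al be p (p + r - p) s s' := by
    rw [add_sub_cancel_left]
    exact L
  obtain ⟨e1, -, e3⟩ := th_facts hM hL' L₁ hn h12 hp
  rw [← hθ, ← hA2] at e1
  rw [← hθ] at e3
  have hne : θ ^ 2 - A2 ≠ 0 := by
    intro h0
    rw [h0, natDegree_zero] at hdeg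
    omega
  have hδ0 : δ ≠ 0 := leadingCoeff_ne_zero.2 hne
  have hT : θ ^ 2 - A2 = (∏ c ∈ (θ ^ 2 - A2).roots.toFinset, (X - C c)) * C δ :=
    prod_roots_fin hnd
  have hroot : ∀ c ∈ (θ ^ 2 - A2).roots.toFinset, (θ ^ 2 - A2).eval c = 0 := by
    intro c hc
    exact (mem_roots hne).1 (Multiset.mem_toFinset.1 hc)
  have hline : ∀ c ∈ (θ ^ 2 - A2).roots.toFinset, NLine P l al₂ be₂ c (p + r - c) (θ.eval c)
      ((C s₁ * yp al al₂ p₁ + C s₁').eval c - θ.eval c * (yp al al₂ p₁).eval c) :=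
    fun c hc => (line_root hM hL' L₁ hn h12 hp (hroot c hc)).1
  obtain ⟨b1, b2⟩ := base (K := K) (x₀ := x₀) hc hD9 hl L hn.sub h12 hδ0
  have hS : SecDat P l al₂ be₂ (p + r) (θ ^ 2 - A2).roots.toFinset
      (C δ * (yp al al₂ p₁ + C ((p - p₁) / (al₂ - al))))
      (C δ * (C s₁ * yp al al₂ p₁ + C s₁' + C ((p - p₁) / (al₂ - al)) * θ)) δ
      (fun c => θ.eval c) (fun c => (C s₁ * yp al al₂ p₁ + C s₁').eval c -
        θ.eval c * (yp al al₂ p₁).eval c) := by
    rw [← yp_add p p₁, ← e3]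
    refine ⟨hn.sub, hδ0, card_roots_fin hnd hdeg, b1, ?_, ?_, ?_, ?_⟩
    · intro a ha
      rw [eval_base L hn.sub h12 hδ0] at ha
      have h1 := (mul_eq_zero.1 ha).resolve_left (pow_ne_zero _ hδ0)
      have h2 := (H55Z.pt_comp hx.nP h9 hl hg L h1).1
      simp only [eval_mul, eval_add, eval_C, mul_div_cancel_left₀ _ hδ0]
      rw [al_meet h12, be_meet L.node.sub hn.sub h12]
      exact h2
    · intro c _
      exact H55Z.cP_natDegree hc hD9 hl hn
    · intro c hc' y hy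
      exact (H55Z.pt_comp hx.nP h9 hl (gen_c _ c hW) (hline c hc') hy).1
    · intro c _
      have h3 := congrArg (eval c) e3
      have h4 := congrArg (eval c) (yp_add (al := al) (al₂ := al₂) p p₁)
      simp only [eval_mul, eval_add, eval_C] at h3 h4 ⊢
      rw [h3, h4]
      ring
  have key := end_spec hx (conic hM L₁ hn h12) natDegree_th e1 hS hT (fun c hc => by
    rw [← e3]
    exact hq c (Multiset.mem_toFinset.1 hc)) N₁ V ε y hε0 hε hy
  rw [← yp_add p p₁, ← e3, b2] at key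
  exact key

/-- **[LINK4]** -/
theorem link4 {m : ℤ} (hM : P.M1 = 0) (hc : NC P) (h4 : Algebra.trdeg ℂ N = 4)
    (hx : H160.Z2Irr.IsFF P x₀) (hD9 : H55Z.Deg9 P) (h9 : H55Z.Good9 P N) :
    Link4 P x₀ N m := by
  haveI : CharZero N := charZero_of_injective_algebraMap (algebraMap ℂ N).injective
  intro l al be al₂ be₂ p r s s' hl L hs hg hn h12 hB hd1 hn1 hd2 hn2
  -- the plane is general
  have hne1 : (planeCub P l (p + r)).disc al ≠ 0 := by
    intro h0
    rw [h0, natDegree_zero] at hd1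
    omega
  have hne2 : (planeCub P l (p + r)).disc al₂ ≠ 0 := by
    intro h0
    rw [h0, natDegree_zero] at hd2
    omega
  have hp0 : ((planeCub P l (p + r)).disc al).eval p = 0 := by
    rw [disc_iff hM L.node]
    exact L.disc hM
  have hW : p + r ∉ cl0 ({l} : Set N) := by
    intro hW
    have hp : p ∈ cl0 ({l} : Set N) := mem_of_root (cl0_closed {l})
      (disc_lifts (subset_cl0 {l} rfl) hW (node_mem hc hl L.node).1) hne1 hp0
    rcases hg with h | h
    · exact h hp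
    · apply h
      have := sub_mem hW hp
      rwa [add_sub_cancel_left] at this
  -- the second tangent line
  obtain ⟨p₁, hp₁, hpp⟩ : ∃ p₁ ∈ ((planeCub P l (p + r)).disc al).roots, p ≠ p₁ := by
    by_contra hcon
    push Not at hcon
    have h1 : Multiset.card ((planeCub P l (p + r)).disc al).roots = 4 := by
      rw [← hd1]
      exact (splits_iff_card_roots).1 (IsAlgClosed.splits _)
    have h2 := Multiset.eq_replicate_card.2 fun b hb => (hcon b hb).symm
    rw [h1] at h2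
    rw [h2] at hn1
    have h3 := Multiset.nodup_iff_count_le_one.1 hn1 p
    rw [Multiset.count_replicate_self] at h3
    omega
  obtain ⟨s₁, s₁', L₁⟩ := exists_nl hM L.node ((mem_roots hne1).1 hp₁)
  have hL' : NLine P l al be p (p + r - p) s s' := by
    rw [add_sub_cancel_left]
    exact L
  have hLn : NLine P l al be p r (-s) (-s') := H55Z.nl_neg L
  have hLn' : NLine P l al be p (p + r - p) (-s) (-s') := H55Z.nl_neg hL'
  obtain ⟨-, e2, -⟩ := th_facts hM hL' L₁ hn h12 hpp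
  have hκ : (p - p₁) / (al₂ - al) ≠ 0 :=
    div_ne_zero (sub_ne_zero.2 hpp) (sub_ne_zero.2 h12.symm)
  have hqs : ∀ x ∈ ((planeCub P l (p + r)).disc al₂).roots,
      (C s * yp al al₂ p + C s').eval x ≠ 0 := by
    intro x hx'
    obtain ⟨c2, c3, c4⟩ := NLine_cub hM L
    have h1 := qs_ne _ h12 (node_a1 hM L.node (p + r)) (node_a1 hM hn (p + r)) c2 c3 c4 hs
      (disc_simple hd1 hn1 hp0) ((mem_roots hne2).1 hx')
    simp only [eval_add, eval_mul, eval_C, eval_yp]
    exact h1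
  have hnl2 : ∀ x ∈ ((planeCub P l (p + r)).disc al₂).roots, ∀ σ σ',
      NLine P l al₂ be₂ x (p + r - x) σ σ' → σ ≠ 0 := by
    intro x hx' σ σ' hL h0
    apply hB x hx'
    rw [← (hL.facts hM).1, h0]
    ring
  set T1 := th al al₂ p s s' p₁ s₁ s₁' with hT1
  set T2 := th al al₂ p (-s) (-s') p₁ s₁ s₁' with hT2
  set A2 := (planeCub P l (p + r)).p2 al₂ with hA2
  set G := planeCub P l (p + r) with hG
  have hCκ : (C ((p - p₁) / (al₂ - al)) ^ 2 : N[X]) = C (((p - p₁) / (al₂ - al)) ^ 2) :=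
    (C_pow).symm
  have hκ2 : ((p - p₁) / (al₂ - al)) ^ 2 ≠ 0 := pow_ne_zero 2 hκ
  have hprod : (T1 ^ 2 - A2) * (T2 ^ 2 - A2) ≠ 0 := by
    intro h0
    rw [h0, mul_zero] at e2
    exact hne2 e2
  obtain ⟨hΔ1, hΔ2⟩ := mul_ne_zero_iff.1 hprod
  have hroots : (G.disc al₂).roots = (T1 ^ 2 - A2).roots + (T2 ^ 2 - A2).roots := by
    rw [e2, hCκ, roots_C_mul _ hκ2, roots_mul hprod]
  have hdegs : (T1 ^ 2 - A2).natDegree + (T2 ^ 2 - A2).natDegree = 4 := by
    rw [← natDegree_mul hΔ1 hΔ2, ← hd2, e2, hCκ, natDegree_C_mul hκ2]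
  have hA2d : A2.natDegree ≤ 1 := by
    rw [hA2]
    unfold Cub.p2
    compute_degree
  have hdle1 : (T1 ^ 2 - A2).natDegree ≤ 2 := natDegree_fD hA2d natDegree_th
  have hdle2 : (T2 ^ 2 - A2).natDegree ≤ 2 := natDegree_fD hA2d natDegree_th
  have hdeg1 : (T1 ^ 2 - A2).natDegree = 2 := by omega
  have hdeg2 : (T2 ^ 2 - A2).natDegree = 2 := by omega
  rw [hroots] at hn2 hqs hnl2
  obtain ⟨hnd1, hnd2, -⟩ := Multiset.nodup_add.1 hn2
  have hq1 : ∀ c ∈ (T1 ^ 2 - A2).roots, (C s * yp al al₂ p + C s').eval c ≠ 0 :=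
    fun c hc' => hqs c (Multiset.mem_add.2 (Or.inl hc'))
  have hq2 : ∀ c ∈ (T2 ^ 2 - A2).roots, (C (-s) * yp al al₂ p + C (-s')).eval c ≠ 0 := by
    intro c hc'
    have h1 := hqs c (Multiset.mem_add.2 (Or.inr hc'))
    simp only [eval_add, eval_mul, eval_C] at h1 ⊢
    intro h2
    apply h1
    linear_combination -h2
  -- the two degenerate members
  have key := multi_specC2 (K := K) (m := m) (r := 13) (n := 2)
    (fun L' _ _ _ c v => Vf P x₀ L' c v) (fun L' L'' _ _ _ _ _ _ g c v => map_Vf hx g c v)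
    (N := N) (cst P l al al₂ be₂ (p + r) p₁ s₁ s₁')
    ![T1.coeff 0, T1.coeff 1] ![1, 0] ![T2.coeff 0, T2.coeff 1] ![1, 0] _ _
    (by
      intro N₁ _ _ _ _ _ V ε y hε0 hε hy _
      exact one_end hx hM hc hD9 h9 hl L hn h12 hg hW hpp L₁ hdeg1 hnd1 hq1 N₁ V ε y hε0 hε hy)
    (by
      intro N₁ _ _ _ _ _ V ε y hε0 hε hy _
      exact one_end hx hM hc hD9 h9 hl hLn hn h12 hg hW hpp L₁ hdeg2 hnd2 hq2 N₁ V ε y hε0 hε
        hy)
  -- the values
  have hv1 : ∀ c ∈ (T1 ^ 2 - A2).roots, ncyc P x₀ l al₂ be₂ c (p + r - c)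
      (sx P l al al₂ p r s s' c) (sp P l al₂ be₂ c (p + r - c) (sx P l al al₂ p r s s' c)) =
      ncyc P x₀ l al₂ be₂ c (p + r - c) (T1.eval c)
        ((C s₁ * yp al al₂ p₁ + C s₁').eval c - T1.eval c * (yp al al₂ p₁).eval c) := by
    intro c hc'
    obtain ⟨f1, f2⟩ := line_root hM hL' L₁ hn h12 hpp ((mem_roots hΔ1).1 hc')
    have hb : sx P l al al₂ p r s s' c = T1.eval c := by
      have h1 := hq1 c hc'
      have h2 : qs al al₂ p s s' c = (C s * yp al al₂ p + C s').eval c := by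
        simp only [eval_add, eval_mul, eval_C, eval_yp]
        rfl
      unfold sx
      rw [f2, h2]
      field_simp
      rfl
    have h0 := hnl2 c (Multiset.mem_add.2 (Or.inl hc')) _ _ f1
    rw [hb, ← f1.s'_eq hM h0]
  have hv2 : ∀ c ∈ (T2 ^ 2 - A2).roots, ncyc P x₀ l al₂ be₂ c (p + r - c)
      (sx P l al al₂ p r s s' c) (sp P l al₂ be₂ c (p + r - c) (sx P l al al₂ p r s s' c)) +
      ncyc P x₀ l al₂ be₂ c (p + r - c) (T2.eval c)
        ((C s₁ * yp al al₂ p₁ + C s₁').eval c - T2.eval c * (yp al al₂ p₁).eval c) ∈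
      Rel m K N := by
    intro c hc'
    obtain ⟨f1, f2⟩ := line_root hM hLn' L₁ hn h12 hpp ((mem_roots hΔ2).1 hc')
    have hb : sx P l al al₂ p r s s' c = -T2.eval c := by
      have h1 := hqs c (Multiset.mem_add.2 (Or.inr hc'))
      have h2 : qs al al₂ p s s' c = (C s * yp al al₂ p + C s').eval c := by
        simp only [eval_add, eval_mul, eval_C, eval_yp]
        rfl
      have h3 : (C (-s) * yp al al₂ p + C (-s')).eval c =
          -(C s * yp al al₂ p + C s').eval c := by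
        simp only [eval_add, eval_mul, eval_C]
        ring
      unfold sx
      rw [f2, h2, h3]
      field_simp
      rfl
    have f3 := H55Z.nl_neg f1
    have h0 := hnl2 c (Multiset.mem_add.2 (Or.inr hc')) _ _ f3
    have h5 := f3.s'_eq hM h0
    have h6 := H55Z.t1 (m := m) h4 hx hc hD9 h9 hl f1 (gen_c _ c hW)
    rw [hb, ← h5, add_comm]
    exact h6
  have ht1 := H55Z.t1 (m := m) h4 hx hc hD9 h9 hl L hg
  rw [hroots, sum_fin hn2, Multiset.map_add, Multiset.sum_add]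
  rw [sum_fin hnd1, sum_fin hnd2] at key
  rw [Multiset.map_congr rfl hv1]
  have h7 : (Multiset.map (fun x => ncyc P x₀ l al₂ be₂ x (p + r - x)
      (sx P l al al₂ p r s s' x) (sp P l al₂ be₂ x (p + r - x) (sx P l al al₂ p r s s' x)))
      (T2 ^ 2 - A2).roots).sum + (Multiset.map (fun c => ncyc P x₀ l al₂ be₂ c (p + r - c)
      (T2.eval c) ((C s₁ * yp al al₂ p₁ + C s₁').eval c - T2.eval c * (yp al al₂ p₁).eval c))
      (T2 ^ 2 - A2).roots).sum ∈ Rel m K N := by
    rw [← Multiset.sum_map_add]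
    refine multiset_sum_mem _ fun z hz => ?_
    obtain ⟨c, hc', rfl⟩ := Multiset.mem_map.1 hz
    exact hv2 c hc'
  have h8 := add_mem (add_mem key ht1) h7
  rw [two_zsmul]
  convert h8 using 1
  abel

end main

end Vale.Agent.P297.H777.Z2
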