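import Vale.Agent.P297.H777.Z2.Sec

/-!
The degree of the equation of the surface on the curves over the lines through a node.
-/

set_option linter.unusedSectionVars false
set_option linter.unusedVariables false

open Polynomial

namespace Vale.Agent.P297.H777.Z2

open Vale.Agent.P297.Z2 Vale.Agent.P297.H160.Z2Irr

section lead

variable {R : Type*} [CommRing R]

/-- degree at most `d`, coefficient `c` in degree `d` -/
def Lead (f : R[X]) (d : ℕ) (c : R) : Prop := f.natDegree ≤ d ∧ f.coeff d = c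

variable {f f' : R[X]} {d e : ℕ} {c c' : R}

theorem Lead.add (h : Lead f d c) (h' : Lead f' d c') : Lead (f + f') d (c + c') :=
  ⟨natDegree_add_le_of_degree_le h.1 h'.1, by rw [coeff_add, h.2, h'.2]⟩

theorem Lead.neg (h : Lead f d c) : Lead (-f) d (-c) :=
  ⟨by rw [natDegree_neg]; exact h.1, by rw [coeff_neg, h.2]⟩

theorem Lead.sub (h : Lead f d c) (h' : Lead f' d c') : Lead (f - f') d (c - c') := by
  rw [sub_eq_add_neg, sub_eq_add_neg]
  exact h.add h'.neg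

theorem Lead.mul (h : Lead f d c) (h' : Lead f' e c') : Lead (f * f') (d + e) (c * c') :=
  ⟨natDegree_mul_le_of_le h.1 h'.1, by rw [coeff_mul_add_eq_of_natDegree_le h.1 h'.1, h.2, h'.2]⟩

theorem Lead.const (a : R) : Lead (C a) 0 a := ⟨(natDegree_C a).le, coeff_C_zero⟩

theorem Lead.X : Lead (X : R[X]) 1 1 := ⟨natDegree_X_le, coeff_X_one⟩

theorem Lead.succ (h : Lead f d c) : Lead f (d + 1) 0 :=
  ⟨h.1.trans (Nat.le_succ d), coeff_eq_zero_of_natDegree_lt (Nat.lt_succ_of_le h.1)⟩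

theorem Lead.sq (h : Lead f d c) : Lead (f ^ 2) (d + d) (c ^ 2) := by
  rw [pow_two, pow_two]
  exact h.mul h

theorem Lead.cube (h : Lead f d c) : Lead (f ^ 3) (d + d + d) (c ^ 3) := by
  rw [pow_succ, pow_two, pow_succ, pow_two]
  exact (h.mul h).mul h

theorem Lead.two : Lead (2 : R[X]) 0 2 := by
  have h := Lead.const (2 : R)
  rwa [map_ofNat] at h

theorem Lead.four : Lead (4 : R[X]) 0 4 := by
  have h := Lead.const (4 : R)
  rwa [map_ofNat] at h

/-- the letters have degree three -/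
structure LD (D : Dat R[X]) (D0 : Dat R) : Prop where
  U : Lead D.U 3 D0.U
  V : Lead D.V 3 D0.V
  a : Lead D.a 3 D0.a
  c : Lead D.c 3 D0.c
  e : Lead D.e 6 D0.e
  m : Lead D.m 6 D0.m
  A : Lead D.A 3 D0.A
  B : Lead D.B 3 D0.B

variable {D : Dat R[X]} {D0 : Dat R} {l p r S : R[X]} {l0 p0 r0 s0 : R}

theorem LD.N (h : LD D D0) (hp : Lead p 3 p0) (hr : Lead r 3 r0) :
    Lead (D.N p r) 6 (D0.N p0 r0) := (hp.mul hr).sub (h.A.mul h.B)

theorem LD.E (h : LD D D0) (hp : Lead p 3 p0) : Lead (D.E p) 6 (D0.E p0) :=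
  (h.V.mul hp).add (h.B.mul h.U)

theorem LD.F (h : LD D D0) (hr : Lead r 3 r0) : Lead (D.F r) 6 (D0.F r0) :=
  (h.U.mul hr).add (h.A.mul h.V)

theorem LD.J0 (h : LD D D0) (hp : Lead p 3 p0) (hr : Lead r 3 r0) :
    Lead (D.J0 p r) 6 (D0.J0 p0 r0) :=
  (((hp.add hr).sq.add (h.a.mul hp)).add (h.c.mul hr)).sub h.m

theorem LD.J1 (h : LD D D0) (hp : Lead p 3 p0) (hr : Lead r 3 r0) :
    Lead (D.J1 p r) 6 (D0.J1 p0 r0) := ((h.U.mul hp).add (h.V.mul hr)).sub h.e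

theorem LD.K (h : LD D D0) (hl : Lead l 0 l0) (hp : Lead p 3 p0) (hr : Lead r 3 r0) :
    Lead (D.K l p r) 6 (D0.K l0 p0 r0) :=
  ((h.J0 hp hr).sub (hl.mul (h.J1 hp hr))).sub (Lead.two.mul (h.N hp hr))

theorem LD.g (h : LD D D0) : Lead D.g 12 D0.g :=
  (((h.U.mul h.V).mul h.e).add (h.A.mul h.V.cube)).add (h.B.mul h.U.cube)

theorem LD.h (h : LD D D0) (hl : Lead l 0 l0) : Lead (D.h l) 18 (D0.h l0) :=
  ((((((h.B.mul h.U.sq).add (h.A.mul h.V.sq)).sq).sub
    (((h.a.mul h.B).mul h.U.cube).mul h.V)).sub (((h.c.mul h.A).mul h.V.cube).mul h.U)).sub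
    ((h.m.mul h.U.sq).mul h.V.sq)).add (((hl.mul h.U).mul h.V).mul h.g)

theorem LD.al (h : LD D D0) (hl : Lead l 0 l0) (hp : Lead p 3 p0) :
    Lead (D.al l p) 15 (D0.al l0 p0) :=
  ((((((((h.g.mul hp).add ((h.B.mul h.U.sq).mul h.e)).add
    (((h.A.mul h.B).mul h.U).mul h.V.sq)).sub
    ((((Lead.two.mul h.A).mul h.B).mul h.U.sq).mul h.V)).sub (h.A.sq.mul h.V.cube)).add
    ((h.a.mul h.B).mul h.U.cube)).add (((h.c.mul h.A).mul h.U).mul h.V.sq)).add
    ((h.m.mul h.U.sq).mul h.V)).sub ((hl.mul h.U).mul h.g)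

theorem LD.be (h : LD D D0) (hl : Lead l 0 l0) (hr : Lead r 3 r0) :
    Lead (D.be l r) 15 (D0.be l0 r0) :=
  ((((((((h.g.mul hr).add ((h.A.mul h.V.sq).mul h.e)).add
    (((h.A.mul h.B).mul h.U.sq).mul h.V)).sub
    ((((Lead.two.mul h.A).mul h.B).mul h.U).mul h.V.sq)).sub (h.B.sq.mul h.U.cube)).add
    (((h.a.mul h.B).mul h.U.sq).mul h.V)).add ((h.c.mul h.A).mul h.V.cube)).add
    ((h.m.mul h.U).mul h.V.sq)).sub ((hl.mul h.V).mul h.g)

theorem LD.Phi (h : LD D D0) (hl : Lead l 0 l0) (hp : Lead p 3 p0) (hr : Lead r 3 r0)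
    (hS : Lead S 6 s0) : Lead (D.Phi l p r S) 30 (D0.Phi l0 p0 r0 s0) :=
  (((((((h.al hl hp).mul h.U).mul (h.E hp)).mul ((h.K hl hp hr).add hS)).add
    ((((h.be hl hr).mul h.V).mul (h.F hr)).mul ((h.K hl hp hr).sub hS))).sub
    ((((Lead.four.mul h.g).mul (h.N hp hr)).mul (h.E hp)).mul (h.F hr))).add
    (((Lead.two.mul (h.h hl)).mul (h.N hp hr)).mul ((h.E hp).add (h.F hr)))).add
    ((((Lead.two.mul hl).mul (h.E hp)).mul (h.F hr)).mul
      ((h.g.mul ((h.E hp).add (h.F hr))).sub (Lead.two.mul (h.h hl)))) |>.add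
    (((Lead.two.mul (h.h hl)).mul (h.E hp)).mul (h.F hr))

variable [Algebra ℂ R] (P : Par)

theorem lead_alg (a : ℂ) : Lead (algebraMap ℂ R[X] a) 0 (algebraMap ℂ R a) :=
  Lead.const _

theorem ld_datH {Y D : R[X]} {y3 : R} (hY : Lead Y 3 y3) (hD : Lead D 3 0) :
    LD (datH P Y D) (datH P y3 0) where
  U := hY.add ((lead_alg _).mul hD)
  V := hY.add ((lead_alg _).mul hD)
  a := (Lead.two.mul hY).add ((lead_alg _).mul hD)
  c := (Lead.two.mul hY).add ((lead_alg _).mul hD)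
  e := (((lead_alg _).mul hD.sq).sub hY.sq).add (((lead_alg _).mul hY).mul hD)
  m := (((lead_alg _).mul hD.sq).sub hY.sq).add (((lead_alg _).mul hY).mul hD)
  A := (lead_alg _).mul hD
  B := (lead_alg _).mul hD

/-- **The degree** of the equation of the surface on a section, times the denominator. -/
theorem natDegree_mul_secF {l aj bj W : R} (hd : bj - aj = 1 - l) {Y D S : R[X]}
    (hY : Y.natDegree ≤ 3) (hD : D.natDegree ≤ 2) (hS : S.natDegree ≤ 3) :
    (D * secF P (C l) (C aj) (C bj) (C W) X Y D S).natDegree ≤ 29 := by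
  have hY' : Lead Y 3 (Y.coeff 3) := ⟨hY, rfl⟩
  have hD' : Lead D 2 (D.coeff 2) := ⟨hD, rfl⟩
  have hS' : Lead S 3 (S.coeff 3) := ⟨hS, rfl⟩
  have hD3 : Lead D 3 0 := hD'.succ
  have hDS : Lead (D * S) 6 0 := (hD'.mul hS').succ
  have hW : Lead (C W - X : R[X]) 1 (0 - 1) := (Lead.const W).succ.sub Lead.X
  have hp : Lead (C aj * Y + X * D) 3 (aj * Y.coeff 3 + 1 * D.coeff 2) :=
    ((Lead.const aj).mul hY').add (Lead.X.mul hD')
  have hr : Lead (-C bj * Y + (C W - X) * D) 3 (-bj * Y.coeff 3 + (0 - 1) * D.coeff 2) :=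
    ((Lead.const bj).neg.mul hY').add (hW.mul hD')
  have key := (ld_datH P hY' hD3).Phi (Lead.const l) hp hr hDS
  have hd' : (C bj - C aj : R[X]) = 1 - C l := by
    rw [← C_sub, hd, C_sub, C_1]
  rw [mul_secF P hd']
  have h0 : (datH P (Y.coeff 3) (0 : R)).Phi l (aj * Y.coeff 3 + 1 * D.coeff 2)
      (-bj * Y.coeff 3 + (0 - 1) * D.coeff 2) 0 = 0 := by
    obtain rfl : bj = aj + 1 - l := by linear_combination hd
    simp only [Dat.Phi, Dat.al, Dat.be, Dat.h, Dat.g, Dat.K, Dat.J0, Dat.J1, Dat.N, Dat.E, Dat.F,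
      datH]
    ring
  rw [h0] at key
  obtain ⟨k1, k2⟩ := key
  rw [natDegree_le_iff_coeff_eq_zero]
  intro n hn
  rcases Nat.lt_or_ge 30 n with h | h
  · exact coeff_eq_zero_of_natDegree_lt (lt_of_le_of_lt k1 h)
  · obtain rfl : n = 30 := by omega
    exact k2

theorem natDegree_secF [IsDomain R] {l aj bj W : R} (hd : bj - aj = 1 - l) {Y D S : R[X]}
    (hY : Y.natDegree ≤ 3) (hD : D.natDegree = 2) (hS : S.natDegree ≤ 3) :
    (secF P (C l) (C aj) (C bj) (C W) X Y D S).natDegree ≤ 27 := by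
  have h1 := natDegree_mul_secF P (W := W) hd hY hD.le hS
  have hD0 : D ≠ 0 := by
    rintro rfl
    rw [natDegree_zero] at hD
    omega
  by_cases h0 : secF P (C l) (C aj) (C bj) (C W) X Y D S = 0
  · rw [h0, natDegree_zero]
    omega
  · rw [natDegree_mul hD0 h0, hD] at h1
    omega

end lead

end Vale.Agent.P297.H777.Z2
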