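import Vale.Agent.P297.H777.Z2.Spec2
import Vale.Agent.P297.H637.MSpec

/-!
General numerical Godeaux surfaces with torsion of order two: the natural family of the sections
over the lines through a node in a plane, and its degenerate members.
-/

set_option linter.unusedSectionVars false
set_option linter.unusedVariables false
set_option linter.style.haveILetI false
set_option linter.unusedSimpArgs false

open Polynomial

namespace Vale.Agent.P297.H777.Z2

open Vale.Agent.P297 Vale.Agent.P297.Gen Vale.Agent.P297.H72 Vale.Agent.P297.H637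
open Vale.Agent.P297.H160.Z2Irr Vale.Agent.P297.Z2 Vale.Agent.P297.H55Z

section fam

variable {R : Type*} [CommRing R]

/-- The conic `Sigma ^ 2 = A2 mu ^ 2 + A3 mu + q ^ 2`, `mu = y - yc`, parametrised by the slope
`a` from the point `(0, q)`. -/
def fD (A2 a : R) : R := a ^ 2 - A2

def fY (yc q A2 A3 a : R) : R := yc * (a ^ 2 - A2) + (A3 - 2 * q * a)

def fS (q A2 A3 a : R) : R := A3 * a - q * (a ^ 2 + A2)

/-- a polynomial of degree one -/
noncomputable def l2 (c0 c1 : R) : R[X] := C c0 + C c1 * X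

/-- a polynomial of degree two -/
noncomputable def l3 (c0 c1 c2 : R) : R[X] := C c0 + C c1 * X + C c2 * X ^ 2

theorem l2_eq {f : R[X]} (h : f.natDegree ≤ 1) : l2 (f.coeff 0) (f.coeff 1) = f := by
  conv_rhs => rw [eq_X_add_C_of_natDegree_le_one h]
  unfold l2
  ring

theorem l3_eq {f : R[X]} (h : f.natDegree ≤ 2) :
    l3 (f.coeff 0) (f.coeff 1) (f.coeff 2) = f := by
  conv_rhs => rw [f.as_sum_range_C_mul_X_pow' (Nat.lt_succ_of_le h)]
  unfold l3
  simp only [Finset.sum_range_succ, Finset.sum_range_zero, pow_zero, mul_one, pow_one, zero_add]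

theorem natDegree_l2 (c0 c1 : R) : (l2 c0 c1).natDegree ≤ 1 := by
  unfold l2
  compute_degree

theorem natDegree_l3 (c0 c1 c2 : R) : (l3 c0 c1 c2).natDegree ≤ 2 := by
  unfold l3
  compute_degree

theorem map_l2 {R' : Type*} [CommRing R'] (f : R →+* R') (c0 c1 : R) :
    (l2 c0 c1).map f = l2 (f c0) (f c1) := by
  simp only [l2, Polynomial.map_add, Polynomial.map_mul, map_C, map_X]

theorem map_l3 {R' : Type*} [CommRing R'] (f : R →+* R') (c0 c1 c2 : R) :
    (l3 c0 c1 c2).map f = l3 (f c0) (f c1) (f c2) := by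
  simp only [l3, Polynomial.map_add, Polynomial.map_mul, Polynomial.map_pow, map_C, map_X]

theorem map_fD {R' : Type*} [CommRing R'] (f : R →+* R') (A2 a : R[X]) :
    (fD A2 a).map f = fD (A2.map f) (a.map f) := by
  simp only [fD, Polynomial.map_sub, Polynomial.map_pow]

theorem map_fY {R' : Type*} [CommRing R'] (f : R →+* R') (yc q A2 A3 a : R[X]) :
    (fY yc q A2 A3 a).map f = fY (yc.map f) (q.map f) (A2.map f) (A3.map f) (a.map f) := by
  simp only [fY, Polynomial.map_sub, Polynomial.map_pow, Polynomial.map_add,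
    Polynomial.map_mul, Polynomial.map_ofNat]

theorem map_fS {R' : Type*} [CommRing R'] (f : R →+* R') (q A2 A3 a : R[X]) :
    (fS q A2 A3 a).map f = fS (q.map f) (A2.map f) (A3.map f) (a.map f) := by
  simp only [fS, Polynomial.map_sub, Polynomial.map_pow, Polynomial.map_add,
    Polynomial.map_mul, Polynomial.map_ofNat]

variable {yc q A2 A3 a : R[X]}

theorem natDegree_fD (h2 : A2.natDegree ≤ 1) (ha : a.natDegree ≤ 1) : (fD A2 a).natDegree ≤ 2 := by
  unfold fD
  have h1 : (a ^ 2).natDegree ≤ 2 := natDegree_pow_le.trans (by omega)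
  exact (natDegree_sub_le _ _).trans (max_le h1 (by omega))

theorem natDegree_fY (hy : yc.natDegree ≤ 1) (hq : q.natDegree ≤ 1) (h2 : A2.natDegree ≤ 1)
    (h3 : A3.natDegree ≤ 2) (ha : a.natDegree ≤ 1) : (fY yc q A2 A3 a).natDegree ≤ 3 := by
  have h1 := natDegree_fD h2 ha
  unfold fD at h1
  have e1 : (yc * (a ^ 2 - A2)).natDegree ≤ 3 := natDegree_mul_le.trans (by omega)
  have e2 : (2 * q * a).natDegree ≤ 2 := by
    refine natDegree_mul_le.trans ?_
    have : (2 * q).natDegree ≤ 1 := by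
      refine natDegree_mul_le.trans ?_
      rw [natDegree_ofNat]
      omega
    omega
  have e3 : (A3 - 2 * q * a).natDegree ≤ 3 :=
    (natDegree_sub_le _ _).trans (max_le (by omega) (by omega))
  exact (natDegree_add_le _ _).trans (max_le e1 e3)

theorem natDegree_fS (hq : q.natDegree ≤ 1) (h2 : A2.natDegree ≤ 1)
    (h3 : A3.natDegree ≤ 2) (ha : a.natDegree ≤ 1) : (fS q A2 A3 a).natDegree ≤ 3 := by
  have h1 : (a ^ 2).natDegree ≤ 2 := natDegree_pow_le.trans (by omega)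
  have e1 : (a ^ 2 + A2).natDegree ≤ 2 :=
    (natDegree_add_le _ _).trans (max_le h1 (by omega))
  have e2 : (q * (a ^ 2 + A2)).natDegree ≤ 3 := natDegree_mul_le.trans (by omega)
  have e3 : (A3 * a).natDegree ≤ 3 := natDegree_mul_le.trans (by omega)
  exact (natDegree_sub_le _ _).trans (max_le e3 e2)

end fam

/-- **The natural family.** -/
noncomputable def Vf {K : Type} [Field K] [Algebra ℂ K] (P : Par) (x₀ : Fin 5 → K) (L : Type)
    [Field L] [Algebra ℂ L] (c : Fin 13 → L) (v : Fin 2 → L) : (K →ₐ[ℂ] L) →₀ ℤ :=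
  secCyc P x₀ (c 0) (c 1) (c 2) (c 3)
    (fY (l2 (c 4) (c 5)) (l2 (c 6) (c 7)) (l2 (c 8) (c 9)) (l3 (c 10) (c 11) (c 12))
      (l2 (v 0) (v 1)))
    (fD (l2 (c 8) (c 9)) (l2 (v 0) (v 1)))
    (fS (l2 (c 6) (c 7)) (l2 (c 8) (c 9)) (l3 (c 10) (c 11) (c 12)) (l2 (v 0) (v 1)))

theorem map_Vf {K : Type} [Field K] [Algebra ℂ K] {P : Par} {x₀ : Fin 5 → K}
    (hx : H160.Z2Irr.IsFF P x₀) {L L' : Type} [Field L] [Algebra ℂ L] [IsAlgClosed L] [Field L']
    [Algebra ℂ L'] (g : L →ₐ[ℂ] L') (c : Fin 13 → L) (v : Fin 2 → L) :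
    Finsupp.mapDomain (fun φ : K →ₐ[ℂ] L => g.comp φ) (Vf P x₀ L c v) =
      Vf P x₀ L' (fun i => g (c i)) (fun i => g (v i)) := by
  unfold Vf
  rw [map_secCyc g hx, map_fY, map_fD, map_fS]
  simp only [map_l2, map_l3, RingHom.coe_coe]

/-- The conics over the lines through the node. -/
structure Conic {N : Type} [Field N] [Algebra ℂ N] (P : Par) (l aj bj W : N)
    (yc q A2 A3 : N[X]) : Prop where
  hd : bj - aj = 1 - l
  dyc : yc.natDegree ≤ 1
  dq : q.natDegree ≤ 1
  dA2 : A2.natDegree ≤ 1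
  dA3 : A3.natDegree ≤ 2
  eq : ∀ (N₁ : Type) [Field N₁] [Algebra ℂ N₁] (φ : N →ₐ[ℂ] N₁) (z y : N₁),
    tB P (φ l) (φ aj * y + z) (-(φ bj) * y + (φ W - z)) y =
      (A2.map (φ : N →+* N₁)).eval z * (y - (yc.map (φ : N →+* N₁)).eval z) ^ 2 +
      (A3.map (φ : N →+* N₁)).eval z * (y - (yc.map (φ : N →+* N₁)).eval z) +
      (q.map (φ : N →+* N₁)).eval z ^ 2

section ends

variable {K N : Type} [Field K] [Algebra ℂ K] [Field N] [Algebra ℂ N] [IsAlgClosed N]
  {P : Par} {x₀ : Fin 5 → K}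

/-- **A degenerate member of the family.** -/
theorem end_spec {l aj bj W : N} {yc q A2 A3 θ : N[X]} (hx : H160.Z2Irr.IsFF P x₀)
    (hC : Conic P l aj bj W yc q A2 A3) (hθ : θ.natDegree ≤ 1) {κ : N}
    (e3 : A3 - 2 * q * θ = C κ * (θ ^ 2 - A2)) {s : Finset N} {δ : N}
    (hS : SecDat P l aj bj W s (C δ * (yc + C κ)) (C δ * (q + C κ * θ)) δ
      (fun c => θ.eval c) (fun c => q.eval c - θ.eval c * yc.eval c))
    (hT : θ ^ 2 - A2 = (∏ c ∈ s, (X - C c)) * C δ)
    (hq : ∀ c ∈ s, (q + C κ * θ).eval c ≠ 0)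
    (N₁ : Type) [Field N₁] [Algebra ℂ N₁] [Algebra N N₁] [IsScalarTower ℂ N N₁] [IsAlgClosed N₁]
    (V : Plc N N₁) (ε : N₁) (y : Fin 2 → N₁) (hε0 : ε ≠ 0) (hε : V.Val ε 0)
    (hy : ∀ i, V.Val (y i) ((![1, 0] : Fin 2 → N) i)) :
    (Vf P x₀ N₁ (fun i => algebraMap N N₁ ((![l, aj, bj, W, yc.coeff 0, yc.coeff 1, q.coeff 0,
        q.coeff 1, A2.coeff 0, A2.coeff 1, A3.coeff 0, A3.coeff 1, A3.coeff 2] : Fin 13 → N) i))
      (fun i => algebraMap N N₁ ((![θ.coeff 0, θ.coeff 1] : Fin 2 → N) i) + ε * y i),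
      secCyc P x₀ l aj bj W (C δ * (yc + C κ)) (C δ) (C δ * (q + C κ * θ)) +
        ∑ c ∈ s, ncyc P x₀ l aj bj c (W - c) (θ.eval c) (q.eval c - θ.eval c * yc.eval c)) ∈
      SpecC K V := by
  classical
  haveI : CharZero N := charZero_of_injective_algebraMap (algebraMap ℂ N).injective
  set φ := algebraMap N N₁ with hφ
  have hy0 : V.Val (y 0) 1 := hy 0
  have hy1 : V.Val (y 1) 0 := hy 1
  set a' : N₁[X] := l2 (y 0) (y 1) with ha'
  have va' : PVal V a' 1 := by
    have h1 := (PVal.C hy0).add ((PVal.C hy1).mul (PVal.X (P := V)))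
    rwa [C_0, zero_mul, add_zero, C_1] at h1
  have ea : l2 (φ (θ.coeff 0) + ε * y 0) (φ (θ.coeff 1) + ε * y 1) = θ.map φ + C ε * a' := by
    conv_rhs => rw [← l2_eq hθ, map_l2]
    rw [ha']
    unfold l2
    simp only [C_add, C_mul]
    ring
  have eV : Vf P x₀ N₁ (fun i => φ ((![l, aj, bj, W, yc.coeff 0, yc.coeff 1, q.coeff 0,
        q.coeff 1, A2.coeff 0, A2.coeff 1, A3.coeff 0, A3.coeff 1, A3.coeff 2] : Fin 13 → N) i))
      (fun i => φ ((![θ.coeff 0, θ.coeff 1] : Fin 2 → N) i) + ε * y i) =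
      secCyc P x₀ (φ l) (φ aj) (φ bj) (φ W)
        (fY (yc.map φ) (q.map φ) (A2.map φ) (A3.map φ) (θ.map φ + C ε * a'))
        (fD (A2.map φ) (θ.map φ + C ε * a'))
        (fS (q.map φ) (A2.map φ) (A3.map φ) (θ.map φ + C ε * a')) := by
    rw [← ea]
    conv_rhs => rw [← l2_eq hC.dyc, ← l2_eq hC.dq, ← l2_eq hC.dA2, ← l3_eq hC.dA3]
    simp only [map_l2, map_l3]
    rfl
  rw [eV]
  have da : (θ.map φ + C ε * a').natDegree ≤ 1 := by
    rw [← ea]
    exact natDegree_l2 _ _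
  have m1 : (yc.map φ).natDegree ≤ 1 := natDegree_map_le.trans hC.dyc
  have m2 : (q.map φ).natDegree ≤ 1 := natDegree_map_le.trans hC.dq
  have m3 : (A2.map φ).natDegree ≤ 1 := natDegree_map_le.trans hC.dA2
  have m4 : (A3.map φ).natDegree ≤ 2 := natDegree_map_le.trans hC.dA3
  have v2 : PVal V (2 : N₁[X]) 2 := by
    have h1 := (PVal.one (P := V)).add PVal.one
    have e1 : (1 : N₁[X]) + 1 = 2 := by norm_num
    have e2 : (1 : N[X]) + 1 = 2 := by norm_num
    rwa [e1, e2] at h1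
  have vε : PVal V (C ε : N₁[X]) 0 := by
    have h1 := PVal.C hε
    rwa [C_0] at h1
  have vθ : PVal V (θ.map φ) θ := PVal.map θ
  -- the first order terms
  have w1 : PVal V (2 * (θ.map φ) * a' + C ε * a' ^ 2) (2 * θ) := by
    have h1 := ((v2.mul vθ).mul va').add (vε.mul (va'.pow 2))
    rwa [zero_mul, add_zero, mul_one] at h1
  have w2 : PVal V (yc.map φ * (2 * (θ.map φ) * a' + C ε * a' ^ 2) - 2 * q.map φ * a')
      (yc * (2 * θ) - 2 * q) := by
    have h1 := ((PVal.map (P := V) yc).mul w1).sub ((v2.mul (PVal.map (P := V) q)).mul va')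
    rwa [mul_one] at h1
  have w3 : PVal V (A3.map φ * a' - q.map φ * (2 * (θ.map φ) * a' + C ε * a' ^ 2))
      (A3 - q * (2 * θ)) := by
    have h1 := ((PVal.map (P := V) A3).mul va').sub ((PVal.map (P := V) q).mul w1)
    rwa [mul_one] at h1
  refine spec hx hS hε hε0 w2 w1 w3 ?_ ?_ ?_ ?_ ?_ ?_ ?_ ?_ ?_
  · have h1 : (∏ c ∈ s, (X - C c)) * (C δ * (yc + C κ)) =
        yc * (θ ^ 2 - A2) + (A3 - 2 * q * θ) := by
      rw [e3, hT]
      ring
    rw [h1]
    unfold fY
    simp only [Polynomial.map_add, Polynomial.map_mul, Polynomial.map_sub, Polynomial.map_pow,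
      Polynomial.map_ofNat]
    ring
  · rw [← hT]
    unfold fD
    simp only [Polynomial.map_sub, Polynomial.map_pow]
    ring
  · have h1 : (∏ c ∈ s, (X - C c)) * (C δ * (q + C κ * θ)) =
        A3 * θ - q * (θ ^ 2 + A2) := by
      have h2 : (∏ c ∈ s, (X - C c)) * (C δ * (q + C κ * θ)) =
        (q + C κ * θ) * (θ ^ 2 - A2) := by
        rw [hT]
        ring
      rw [h2]
      linear_combination (-θ) * e3
    rw [h1]
    unfold fS
    simp only [Polynomial.map_add, Polynomial.map_mul, Polynomial.map_sub, Polynomial.map_pow]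
    ring
  · exact natDegree_fY m1 m2 m3 m4 da
  · exact natDegree_fD m3 da
  · exact natDegree_fS m2 m3 m4 da
  · intro z hz
    have h1 := hC.eq N₁ (IsScalarTower.toAlgHom ℂ N N₁) z
      ((fY (yc.map φ) (q.map φ) (A2.map φ) (A3.map φ) (θ.map φ + C ε * a')).eval z /
        (fD (A2.map φ) (θ.map φ + C ε * a')).eval z)
    change tB P (φ l) (φ aj * _ + z) (-(φ bj) * _ + (φ W - z)) _ =
      (A2.map φ).eval z * (_ - (yc.map φ).eval z) ^ 2 +
      (A3.map φ).eval z * (_ - (yc.map φ).eval z) + (q.map φ).eval z ^ 2 at h1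
    rw [h1]
    generalize θ.map φ + C ε * a' = a at hz ⊢
    unfold fD fY fS at *
    simp only [eval_add, eval_mul, eval_sub, eval_pow, eval_ofNat] at hz ⊢
    generalize a.eval z = t at hz ⊢
    generalize (A2.map φ).eval z = u2 at hz ⊢
    generalize (A3.map φ).eval z = u3 at hz ⊢
    generalize (q.map φ).eval z = qq at hz ⊢
    generalize (yc.map φ).eval z = yy at hz ⊢
    have e4 : (yy * (t ^ 2 - u2) + (u3 - 2 * qq * t)) / (t ^ 2 - u2) - yy =
        (u3 - 2 * qq * t) / (t ^ 2 - u2) := by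
      field_simp
      ring
    rw [e4]
    field_simp
    ring
  · intro c hc
    have h1 : (θ ^ 2 - A2).eval c = 0 := by
      rw [hT, eval_mul, eval_prod, Finset.prod_eq_zero hc (by simp), zero_mul]
    have h2 := congrArg (eval c) e3
    rw [eval_mul, h1, mul_zero] at h2
    simp only [eval_add, eval_mul, eval_sub, eval_pow, eval_ofNat] at h2 ⊢
    linear_combination h2
  · intro c hc
    have h1 := hq c hc
    simp only [eval_add, eval_mul, eval_sub, eval_pow, eval_ofNat, eval_C] at h1 ⊢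
    have h2 : δ * (yc.eval c + κ) * (2 * θ.eval c) -
        δ * (yc.eval c * (2 * θ.eval c) - 2 * q.eval c) =
        2 * δ * (q.eval c + κ * θ.eval c) := by ring
    rw [h2]
    exact mul_ne_zero (mul_ne_zero two_ne_zero hS.δ0) h1

end ends

end Vale.Agent.P297.H777.Z2
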