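import Vale.Agent.P297.H777.Z2.Fam
import Vale.Agent.P297.H65.Z2.PlaneMap

/-!
General numerical Godeaux surfaces with torsion of order two: two tangent lines through one node
and the conics over the lines through another one, in the same plane.
-/

set_option linter.unusedSectionVars false
set_option linter.unusedVariables false
set_option linter.style.haveILetI false
set_option linter.unusedSimpArgs false

open Polynomial

namespace Vale.Agent.P297.H777.Z2

open Vale.Agent.P297 Vale.Agent.P297.Gen Vale.Agent.P297.H72 Vale.Agent.P297.H637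
open Vale.Agent.P297.H160.Z2Irr Vale.Agent.P297.Z2 Vale.Agent.P297.H65

section alg

variable {R : Type*} [CommRing R] {yc k k' q t p2 p3 p4 : R}

/-- the first coefficient of the conic -/
theorem alg_one (h1 : p2 * yc ^ 2 + p3 * yc + p4 = q ^ 2)
    (h2 : p2 * (yc + k) ^ 2 + p3 * (yc + k) + p4 = t ^ 2) (h : k * k' = 1) :
    p3 + 2 * p2 * yc - 2 * q * (k' * (t - q)) = k * ((k' * (t - q)) ^ 2 - p2) := by
  linear_combination k' * (h2 - h1) - (p3 + 2 * p2 * yc + k * p2 + k' * (t - q) ^ 2) * h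

theorem alg_two (h1 : p2 * yc ^ 2 + p3 * yc + p4 = q ^ 2)
    (h2 : p2 * (yc + k) ^ 2 + p3 * (yc + k) + p4 = t ^ 2) (h : k * k' = 1) :
    p3 ^ 2 - 4 * p2 * p4 =
      k ^ 2 * (((k' * (t - q)) ^ 2 - p2) * ((k' * (-t - q)) ^ 2 - p2)) := by
  have h3 : p2 * (yc + k) ^ 2 + p3 * (yc + k) + p4 = (-t) ^ 2 := by rw [h2]; ring
  have e1 := alg_one h1 h2 h
  have e2 := alg_one h1 h3 h
  have e5 : k' * (t ^ 2 - q ^ 2) = p3 + 2 * p2 * yc + k * p2 := by
    linear_combination k' * (h1 - h2) + (p3 + 2 * p2 * yc + k * p2) * h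
  have e4 : k ^ 2 * (((k' * (t - q)) ^ 2 - p2) * ((k' * (-t - q)) ^ 2 - p2)) =
      (k * ((k' * (t - q)) ^ 2 - p2)) * (k * ((k' * (-t - q)) ^ 2 - p2)) := by ring
  rw [e4, ← e1, ← e2]
  linear_combination (-4 * p2) * h1 + 4 * q ^ 2 * k' * e5 + 4 * q ^ 2 * p2 * h

end alg

section pol

variable {N : Type} [Field N] {al al₂ p : N}

/-- the coordinate of the intersection with a line through the other node -/
noncomputable def yp (al al₂ p : N) : N[X] := C (-1 / (al₂ - al)) * X + C (p / (al₂ - al))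

theorem eval_yp (z : N) : (yp al al₂ p).eval z = (p - z) / (al₂ - al) := by
  unfold yp
  simp only [eval_add, eval_mul, eval_C, eval_X]
  ring

theorem natDegree_yp : (yp al al₂ p).natDegree ≤ 1 := by
  unfold yp
  compute_degree

theorem map_yp {N₁ : Type} [Field N₁] (φ : N →+* N₁) :
    (yp al al₂ p).map φ = yp (φ al) (φ al₂) (φ p) := by
  simp only [yp, Polynomial.map_add, Polynomial.map_mul, map_C, map_X, map_div₀, map_neg,
    map_one, map_sub]

theorem yp_add (p p₁ : N) : yp al al₂ p = yp al al₂ p₁ + C ((p - p₁) / (al₂ - al)) := by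
  unfold yp
  rw [add_assoc, ← C_add]
  congr 2
  ring

end pol

section inst

variable {N : Type} [Field N] [Algebra ℂ N] {P : Par} {l al be al₂ be₂ p r s s' : N}
  {N₁ : Type} [Field N₁] [Algebra ℂ N₁]

theorem nline_eval (φ : N →ₐ[ℂ] N₁) (L : NLine P l al be p r s s') (y : N₁) :
    tB P (φ l) (φ al * y + φ p) (-(φ be) * y + φ r) y = (φ s * y + φ s') ^ 2 := by
  have h := congrArg (Polynomial.mapAlgHom φ) L.eq
  rw [map_tB] at h
  simp only [map_add, map_mul, map_pow, coe_mapAlgHom, Polynomial.map_C, Polynomial.map_X,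
    RingHom.coe_coe, Polynomial.map_add, Polynomial.map_mul, Polynomial.map_pow] at h
  have h2 := congrArg (eval y) h
  rw [eval_tB] at h2
  simp only [eval_add, eval_mul, eval_C, eval_X, eval_pow, map_neg, eval_neg] at h2
  exact h2

/-- the point of intersection -/
theorem meet_eq (φ : N →ₐ[ℂ] N₁) (L : NLine P l al be p r s s') (hd₂ : be₂ - al₂ = 1 - l)
    (h12 : al ≠ al₂) (z : N₁) :
    tB P (φ l) (φ al₂ * ((φ p - z) / (φ al₂ - φ al)) + z)
      (-(φ be₂) * ((φ p - z) / (φ al₂ - φ al)) + (φ (p + r) - z))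
      ((φ p - z) / (φ al₂ - φ al)) =
      (φ s * ((φ p - z) / (φ al₂ - φ al)) + φ s') ^ 2 := by
  have hne : φ al₂ - φ al ≠ 0 := by
    rw [← map_sub]
    exact (map_ne_zero φ).2 (sub_ne_zero.2 h12.symm)
  have e0 : (φ al₂ - φ al) * ((φ p - z) / (φ al₂ - φ al)) = φ p - z := mul_div_cancel₀ _ hne
  generalize (φ p - z) / (φ al₂ - φ al) = Y at e0 ⊢
  have h1 : φ be - φ al = 1 - φ l := by
    rw [← map_sub, L.node.sub, map_sub, map_one]
  have h2 : φ be₂ - φ al₂ = 1 - φ l := by
    rw [← map_sub, hd₂, map_sub, map_one]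
  have e1 : φ al₂ * Y + z = φ al * Y + φ p := by linear_combination e0
  have e2 : -(φ be₂) * Y + (φ (p + r) - z) = -(φ be) * Y + φ r := by
    rw [map_add]
    linear_combination -e0 + Y * h1 - Y * h2
  rw [e1, e2]
  exact nline_eval φ L Y

theorem map_p2 (G : Cub N) (φ : N →+* N₁) (α : N) : (G.p2 α).map φ = (G.map φ).p2 (φ α) := by
  simp only [Cub.p2, Cub.map, Polynomial.map_mul, Polynomial.map_add, Polynomial.map_pow, map_C,
    map_X, map_add, map_mul, map_pow, map_ofNat, Polynomial.map_ofNat]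

theorem map_p3 (G : Cub N) (φ : N →+* N₁) (α : N) : (G.p3 α).map φ = (G.map φ).p3 (φ α) := by
  simp only [Cub.p3, Cub.map, Polynomial.map_mul, Polynomial.map_add, Polynomial.map_pow, map_C,
    map_X, map_add, map_mul, map_pow, map_ofNat, Polynomial.map_ofNat]

theorem map_p4 (G : Cub N) (φ : N →+* N₁) : (G.p4).map φ = (G.map φ).p4 := by
  simp only [Cub.p4, Cub.map, Polynomial.map_mul, Polynomial.map_add, Polynomial.map_pow, map_C,
    map_X, map_add, map_mul, map_pow, map_ofNat]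

/-- the branch quartic on the lines through the node -/
theorem plane_eval [CharZero N] (hM : P.M1 = 0) (φ : N →ₐ[ℂ] N₁) (hn : IsNode P l al₂ be₂)
    (W : N) (z y : N₁) :
    tB P (φ l) (φ al₂ * y + z) (-(φ be₂) * y + (φ W - z)) y =
      (((planeCub P l W).p2 al₂).map (φ : N →+* N₁)).eval z * y ^ 2 +
      (((planeCub P l W).p3 al₂).map (φ : N →+* N₁)).eval z * y +
      ((planeCub P l W).p4.map (φ : N →+* N₁)).eval z := by
  have h1 : φ be₂ - φ al₂ = 1 - φ l := by
    rw [← map_sub, hn.sub, map_sub, map_one]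
  have h2 := ev_planeCub P (φ l) (φ W) (φ al₂ * y + z) y
  have e1 : φ W - (1 - φ l) * y - (φ al₂ * y + z) = -(φ be₂) * y + (φ W - z) := by
    linear_combination y * h1
  rw [e1, Cub.ev_line] at h2
  have h3 : (planeCub P (φ l) (φ W)).a1 (φ al₂) = 0 := by
    have h4 := Cub.map_a1 (planeCub P l W) (φ : N →+* N₁) al₂
    rw [node_a1 hM hn, map_zero] at h4
    rw [← map_planeCub]
    exact h4.symm
  rw [h3, zero_mul, zero_add] at h2
  rw [map_p2, map_p3, map_p4, Cub.eval_p2, Cub.eval_p3, Cub.eval_p4, ← h2]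
  have h5 := map_planeCub P φ l W
  rw [show (planeCub P l W).map (φ : N →+* N₁) = planeCub P (φ l) (φ W) from h5]
  rfl

/-- **The conics.** -/
theorem conic [CharZero N] (hM : P.M1 = 0) {W p₁ s₁ s₁' : N}
    (L₁ : NLine P l al be p₁ (W - p₁) s₁ s₁') (hn : IsNode P l al₂ be₂) (h12 : al ≠ al₂) :
    Conic P l al₂ be₂ W (yp al al₂ p₁) (C s₁ * yp al al₂ p₁ + C s₁') ((planeCub P l W).p2 al₂)
      ((planeCub P l W).p3 al₂ + 2 * (planeCub P l W).p2 al₂ * yp al al₂ p₁) where
  hd := hn.sub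
  dyc := natDegree_yp
  dq := by
    refine (natDegree_add_le _ _).trans (max_le ?_ (by rw [natDegree_C]; omega))
    exact (natDegree_C_mul_le _ _).trans natDegree_yp
  dA2 := by
    unfold Cub.p2
    compute_degree
  dA3 := by
    refine (natDegree_add_le _ _).trans (max_le ?_ ?_)
    · unfold Cub.p3
      compute_degree
    · refine natDegree_mul_le.trans ?_
      have h1 : (yp al al₂ p₁).natDegree ≤ 1 := natDegree_yp
      have h2 : (2 * (planeCub P l W).p2 al₂).natDegree ≤ 1 := by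
        refine natDegree_mul_le.trans ?_
        rw [natDegree_ofNat, zero_add]
        unfold Cub.p2
        compute_degree
      omega
  eq := by
    intro N₁ _ _ φ z y
    have h1 := plane_eval hM φ hn W z y
    have h2 := plane_eval hM φ hn W z ((φ p₁ - z) / (φ al₂ - φ al))
    have h3 := meet_eq φ L₁ hn.sub h12 z
    rw [add_sub_cancel] at h3
    rw [h2] at h3
    rw [h1]
    simp only [Polynomial.map_add, Polynomial.map_mul, Polynomial.map_ofNat, map_C, eval_add,
      eval_mul, eval_ofNat, eval_C, map_yp, RingHom.coe_coe, eval_yp]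
    linear_combination h3

/-- the value at the intersection -/
theorem pol_eq [CharZero N] (hM : P.M1 = 0) {W p₁ s₁ s₁' : N}
    (L₁ : NLine P l al be p₁ (W - p₁) s₁ s₁') (hn : IsNode P l al₂ be₂) (h12 : al ≠ al₂) :
    (planeCub P l W).p2 al₂ * yp al al₂ p₁ ^ 2 + (planeCub P l W).p3 al₂ * yp al al₂ p₁ +
      (planeCub P l W).p4 = (C s₁ * yp al al₂ p₁ + C s₁') ^ 2 := by
  refine Polynomial.funext fun z => ?_
  have h2 := plane_eval hM (AlgHom.id ℂ N) hn W z ((p₁ - z) / (al₂ - al))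
  have h3 := meet_eq (AlgHom.id ℂ N) L₁ hn.sub h12 z
  rw [add_sub_cancel] at h3
  simp only [AlgHom.id_apply, AlgHom.toRingHom_eq_coe, AlgHom.id_toRingHom,
    Polynomial.map_id] at h2 h3
  rw [h2] at h3
  simp only [eval_add, eval_mul, eval_pow, eval_C, eval_yp]
  exact h3

/-- a tangent line through a node -/
theorem nl_of [CharZero N] (hM : P.M1 = 0) (hn : IsNode P l al₂ be₂) {W x σ σ' : N}
    (h2 : (planeCub P l W).a2 al₂ x = σ ^ 2) (h3 : (planeCub P l W).a3 al₂ x = 2 * σ * σ')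
    (h4 : (planeCub P l W).a4 x = σ' ^ 2) : NLine P l al₂ be₂ x (W - x) σ σ' := by
  refine ⟨hn, Polynomial.funext fun z => ?_⟩
  rw [eval_tB]
  simp only [eval_add, eval_mul, eval_C, eval_X, eval_pow]
  have h5 := plane_eval hM (AlgHom.id ℂ N) hn W x z
  simp only [AlgHom.id_apply, AlgHom.toRingHom_eq_coe, AlgHom.id_toRingHom,
    Polynomial.map_id, Cub.eval_p2, Cub.eval_p3, Cub.eval_p4] at h5
  rw [h5, h2, h3, h4]
  ring

/-- a root of the discriminant is a tangent line -/
theorem exists_nl [CharZero N] [IsAlgClosed N] (hM : P.M1 = 0) (hn : IsNode P l al₂ be₂) {W x : N}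
    (h : ((planeCub P l W).disc al₂).eval x = 0) : ∃ σ σ', NLine P l al₂ be₂ x (W - x) σ σ' := by
  rw [Cub.eval_disc] at h
  by_cases h2 : (planeCub P l W).a2 al₂ x = 0
  · obtain ⟨σ', hσ'⟩ := IsAlgClosed.exists_pow_nat_eq ((planeCub P l W).a4 x) (n := 2) (by norm_num)
    refine ⟨0, σ', nl_of hM hn (by rw [h2]; ring) ?_ hσ'.symm⟩
    rw [h2, mul_zero, zero_mul, sub_zero] at h
    rw [pow_eq_zero_iff two_ne_zero |>.1 h]
    ring
  · obtain ⟨σ, hσ⟩ := IsAlgClosed.exists_pow_nat_eq ((planeCub P l W).a2 al₂ x) (n := 2)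
      (by norm_num)
    have hσ0 : σ ≠ 0 := by
      rintro rfl
      apply h2
      rw [← hσ]
      ring
    refine ⟨σ, (planeCub P l W).a3 al₂ x / (2 * σ), nl_of hM hn hσ.symm ?_ ?_⟩
    · field_simp
    · rw [div_pow, eq_div_iff (pow_ne_zero 2 (mul_ne_zero two_ne_zero hσ0)), mul_pow, hσ]
      linear_combination -h

end inst

end Vale.Agent.P297.H777.Z2
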