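import Vale.Agent.P297.H72.Z2.TDefs

/-!
General numerical Godeaux surfaces with torsion of order two: the equation of the surface on the
curves `y = Y / D`, `Sigma = S / D` over the lines through a node in a plane
`p + r + (1 - l) y = W`.
-/

set_option linter.unusedSectionVars false
set_option linter.unusedVariables false

open Polynomial

namespace Vale.Agent.P297.H777.Z2

open Vale.Agent.P297.Z2 Vale.Agent.P297.H160.Z2Irr

section ring

variable {R : Type*} [CommRing R]

/-- scaling of the letters -/
def scale (d : R) (D : Dat R) : Dat R where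
  U := d * D.U
  V := d * D.V
  a := d * D.a
  c := d * D.c
  e := d ^ 2 * D.e
  m := d ^ 2 * D.m
  A := d * D.A
  B := d * D.B

theorem N_scale (d : R) (D : Dat R) (p r : R) :
    (scale d D).N (d * p) (d * r) = d ^ 2 * D.N p r := by
  simp only [Dat.N, scale]; ring

theorem E_scale (d : R) (D : Dat R) (p : R) : (scale d D).E (d * p) = d ^ 2 * D.E p := by
  simp only [Dat.E, scale]; ring

theorem F_scale (d : R) (D : Dat R) (r : R) : (scale d D).F (d * r) = d ^ 2 * D.F r := by
  simp only [Dat.F, scale]; ring

theorem K_scale (d : R) (D : Dat R) (l p r : R) :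
    (scale d D).K l (d * p) (d * r) = d ^ 2 * D.K l p r := by
  simp only [Dat.K, Dat.J0, Dat.J1, Dat.N, scale]; ring

theorem g_scale (d : R) (D : Dat R) : (scale d D).g = d ^ 4 * D.g := by
  simp only [Dat.g, scale]; ring

theorem h_scale (d : R) (D : Dat R) (l : R) : (scale d D).h l = d ^ 6 * D.h l := by
  simp only [Dat.h, Dat.g, scale]; ring

theorem al_scale (d : R) (D : Dat R) (l p : R) :
    (scale d D).al l (d * p) = d ^ 5 * D.al l p := by
  simp only [Dat.al, Dat.g, scale]; ring

theorem be_scale (d : R) (D : Dat R) (l r : R) :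
    (scale d D).be l (d * r) = d ^ 5 * D.be l r := by
  simp only [Dat.be, Dat.g, scale]; ring

theorem Bq_scale (d : R) (D : Dat R) (l p r : R) :
    (scale d D).Bq l (d * p) (d * r) = d ^ 4 * D.Bq l p r := by
  unfold Dat.Bq
  rw [K_scale, N_scale, E_scale, F_scale]
  ring

theorem Phi_scale (d : R) (D : Dat R) (l p r S : R) :
    (scale d D).Phi l (d * p) (d * r) (d ^ 2 * S) = d ^ 10 * D.Phi l p r S := by
  unfold Dat.Phi
  rw [al_scale, E_scale, K_scale, be_scale, F_scale, g_scale, N_scale, h_scale]
  simp only [scale]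
  ring

variable [Algebra ℂ R] (P : Par)

/-- the letters over `y = Y / D` -/
def datH (Y D : R) : Dat R where
  U := Y + algebraMap ℂ R P.u * D
  V := Y + algebraMap ℂ R P.v * D
  a := 2 * Y + algebraMap ℂ R P.Q0 * D
  c := 2 * Y + algebraMap ℂ R P.Q1 * D
  e := algebraMap ℂ R P.n * D ^ 2 - Y ^ 2 + algebraMap ℂ R P.P1 * Y * D
  m := algebraMap ℂ R P.m * D ^ 2 - Y ^ 2 + algebraMap ℂ R P.M1 * Y * D
  A := algebraMap ℂ R P.P0 * D
  B := algebraMap ℂ R P.P2 * D

theorem datH_scale (d Y D : R) : datH P (d * Y) (d * D) = scale d (datH P Y D) := by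
  simp only [datH, scale, Dat.mk.injEq]
  refine ⟨?_, ?_, ?_, ?_, ?_, ?_, ?_, ?_⟩ <;> ring

theorem datH_one (y : R) : datH P y 1 = dat P y := by
  simp only [datH, dat, fU, fV, fa, fc, fe, fm, mul_one, one_pow]

theorem datH_eq (y D : R) : datH P (D * y) D = scale D (dat P y) := by
  have h := datH_scale P D y 1
  rw [mul_one, datH_one] at h
  exact h

/-- the equation of the surface, homogeneous, as a polynomial in the last letter -/
noncomputable def phiT (l aj bj W x Y S : R) : R[X] :=
  (datH P (C Y) (X : R[X])).Phi (C l) (C (aj * Y) + C x * X) (C (-bj * Y) + C (W - x) * X)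
    (X * C S)

/-- **The equation of the surface on the curve** `y = Y / D`, `Sigma = S / D` in the plane `W`
over the parameter `x` of the lines through the node `(aj : -bj : 1)`. -/
noncomputable def secF (l aj bj W x Y D S : R) : R := (phiT P l aj bj W x Y S).divX.eval D

theorem dat_map_poly {R' : Type*} [CommRing R'] (f : R →+* R') (D : Dat R) (l p r S : R) :
    f (D.Phi l p r S) = (D.map f).Phi (f l) (f p) (f r) (f S) := by
  simp only [Dat.Phi, Dat.al, Dat.be, Dat.h, Dat.g, Dat.K, Dat.J0, Dat.J1, Dat.N, Dat.E, Dat.F,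
    Dat.map, map_add, map_sub, map_mul, map_pow, map_ofNat]

theorem eval_phiT (l aj bj W x Y S D : R) : (phiT P l aj bj W x Y S).eval D =
    (datH P Y D).Phi l (aj * Y + x * D) (-bj * Y + (W - x) * D) (D * S) := by
  have h := dat_map_poly (Polynomial.evalRingHom D) (datH P (C Y) (X : R[X])) (C l)
    (C (aj * Y) + C x * X) (C (-bj * Y) + C (W - x) * X) (X * C S)
  have h1 : (datH P (C Y) (X : R[X])).map (Polynomial.evalRingHom D) = datH P Y D := by
    simp only [datH, Dat.map, coe_evalRingHom, eval_add, eval_sub, eval_mul, eval_pow, eval_C,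
      eval_X, eval_ofNat, Polynomial.algebraMap_apply, eval_C]
  rw [h1] at h
  simp only [coe_evalRingHom, eval_add, eval_mul, eval_C, eval_X] at h
  exact h

/-- At the node the equation vanishes. -/
theorem phiT_zero {l aj bj : R} (hd : bj - aj = 1 - l) (W x Y S : R) :
    (phiT P l aj bj W x Y S).coeff 0 = 0 := by
  rw [coeff_zero_eq_eval_zero, eval_phiT]
  obtain rfl : bj = aj + 1 - l := by linear_combination hd
  simp only [Dat.Phi, Dat.al, Dat.be, Dat.h, Dat.g, Dat.K, Dat.J0, Dat.J1, Dat.N, Dat.E, Dat.F,
    datH]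
  ring

theorem mul_secF {l aj bj : R} (hd : bj - aj = 1 - l) (W x Y D S : R) :
    D * secF P l aj bj W x Y D S =
      (datH P Y D).Phi l (aj * Y + x * D) (-bj * Y + (W - x) * D) (D * S) := by
  rw [← eval_phiT]
  unfold secF
  have h := divX_mul_X_add (phiT P l aj bj W x Y S)
  rw [phiT_zero P hd, C_0, add_zero] at h
  conv_rhs => rw [← h]
  rw [eval_mul, eval_X]
  ring

theorem map_secF {R' : Type*} [CommRing R'] [Algebra ℂ R'] (f : R →ₐ[ℂ] R')
    (l aj bj W x Y D S : R) : f (secF P l aj bj W x Y D S) =
      secF P (f l) (f aj) (f bj) (f W) (f x) (f Y) (f D) (f S) := by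
  have h1 : (phiT P l aj bj W x Y S).map (f : R →+* R') =
      phiT P (f l) (f aj) (f bj) (f W) (f x) (f Y) (f S) := by
    have h := dat_map_poly (Polynomial.mapRingHom (f : R →+* R')) (datH P (C Y) (X : R[X])) (C l)
      (C (aj * Y) + C x * X) (C (-bj * Y) + C (W - x) * X) (X * C S)
    have h2 : (datH P (C Y) (X : R[X])).map (Polynomial.mapRingHom (f : R →+* R')) =
        datH P (C (f Y)) (X : R'[X]) := by
      simp only [datH, Dat.map, coe_mapRingHom, Polynomial.map_add, Polynomial.map_sub,
        Polynomial.map_mul, Polynomial.map_pow, Polynomial.map_C, Polynomial.map_X,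
        Polynomial.map_ofNat, Polynomial.algebraMap_apply, RingHom.coe_coe, AlgHom.commutes]
    rw [h2] at h
    have e1 : (mapRingHom (f : R →+* R')) (C l) = C (f l) := by
      rw [coe_mapRingHom, Polynomial.map_C, RingHom.coe_coe]
    have e2 : (mapRingHom (f : R →+* R')) (C (aj * Y) + C x * X) =
        C (f aj * f Y) + C (f x) * X := by
      simp only [coe_mapRingHom, Polynomial.map_add, Polynomial.map_mul,
        Polynomial.map_C, Polynomial.map_X, RingHom.coe_coe, map_mul]
    have e3 : (mapRingHom (f : R →+* R')) (C (-bj * Y) + C (W - x) * X) =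
        C (-(f bj) * f Y) + C (f W - f x) * X := by
      simp only [coe_mapRingHom, Polynomial.map_add, Polynomial.map_mul,
        Polynomial.map_C, Polynomial.map_X, RingHom.coe_coe, map_mul, map_neg, map_sub,
        Polynomial.map_neg, Polynomial.map_sub]
    have e4 : (mapRingHom (f : R →+* R')) (X * C S) = X * C (f S) := by
      simp only [coe_mapRingHom, Polynomial.map_mul, Polynomial.map_C, Polynomial.map_X,
        RingHom.coe_coe]
    rw [e1, e2, e3, e4] at h
    exact h
  have h3 : ∀ q : R[X], (q.map (f : R →+* R')).divX = q.divX.map (f : R →+* R') := by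
    intro q
    ext n
    rw [coeff_divX, coeff_map, coeff_map, coeff_divX]
  unfold secF
  rw [← h1, h3, eval_map]
  exact (Polynomial.eval₂_at_apply (f : R →+* R') D).symm

end ring

end Vale.Agent.P297.H777.Z2
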