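import Vale.Agent.P297.H777.Z2.Deg
import Vale.Agent.P297.H55.Z2.TOne
import Vale.Agent.P297.H940.Z2.Inst

/-!
General numerical Godeaux surfaces with torsion of order two: the cycles of the surface on the
sections over the lines through a node in a plane, and their degenerations.
-/

set_option linter.unusedSectionVars false
set_option linter.unusedVariables false
set_option linter.style.haveILetI false
set_option linter.unusedSimpArgs false

open Polynomial

namespace Vale.Agent.P297.H777.Z2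

open Vale.Agent.P297 Vale.Agent.P297.Gen Vale.Agent.P297.H72 Vale.Agent.P297.H637
open Vale.Agent.P297.H160.Z2Irr Vale.Agent.P297.Z2 Vale.Agent.P297.H55Z

section alg

variable {R : Type*} [CommRing R] [Algebra ℂ R] [IsDomain R] (P : Par)

/-- The equation is homogeneous. -/
theorem secF_smul {l aj bj : R} (hd : bj - aj = 1 - l) (W x Y S : R) {D c : R} (hD : D ≠ 0)
    (hc : c ≠ 0) : secF P l aj bj W x (c * Y) (c * D) (c * S) =
      c ^ 9 * secF P l aj bj W x Y D S := by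
  have h1 := mul_secF P hd W x (c * Y) (c * D) (c * S)
  have h2 := mul_secF P hd W x Y D S
  have h3 := Phi_scale c (datH P Y D) l (aj * Y + x * D) (-bj * Y + (W - x) * D) (D * S)
  rw [← datH_scale] at h3
  have e1 : c * (aj * Y + x * D) = aj * (c * Y) + x * (c * D) := by ring
  have e2 : c * (-bj * Y + (W - x) * D) = -bj * (c * Y) + (W - x) * (c * D) := by ring
  have e3 : c ^ 2 * (D * S) = c * D * (c * S) := by ring
  rw [e1, e2, e3, ← h1, ← h2] at h3
  apply mul_left_cancel₀ (mul_ne_zero hc hD)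
  rw [h3]
  ring

end alg

section field

variable {N : Type} [Field N] [Algebra ℂ N] (P : Par)

/-- The equation on the section is the equation of the surface. -/
theorem secF_eq {l aj bj : N} (hd : bj - aj = 1 - l) (W x Y S : N) {D : N} (hD : D ≠ 0) :
    secF P l aj bj W x Y D S =
      D ^ 9 * tPhi P l (aj * (Y / D) + x) (-bj * (Y / D) + (W - x)) (Y / D) (S / D) := by
  have h2 := mul_secF P hd W x Y D S
  have h3 := Phi_scale D (dat P (Y / D)) l (aj * (Y / D) + x) (-bj * (Y / D) + (W - x)) (S / D)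
  rw [← datH_eq] at h3
  have e0 : D * (Y / D) = Y := mul_div_cancel₀ _ hD
  have e1 : D * (aj * (Y / D) + x) = aj * Y + x * D := by
    rw [mul_add, mul_left_comm, e0, mul_comm x]
  have e2 : D * (-bj * (Y / D) + (W - x)) = -bj * Y + (W - x) * D := by
    rw [mul_add, mul_left_comm, e0, mul_comm (W - x)]
  have e3 : D ^ 2 * (S / D) = D * S := by
    rw [pow_two, mul_assoc, mul_div_cancel₀ _ hD]
  rw [e0, e1, e2, e3, ← h2] at h3
  apply mul_left_cancel₀ hD
  rw [h3]
  unfold tPhi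
  ring

/-- the equation of the surface on a section -/
noncomputable def secP (l aj bj W : N) (Y D S : N[X]) : N[X] :=
  secF P (C l) (C aj) (C bj) (C W) X Y D S

/-- the points of the section -/
noncomputable def secPt (l aj bj W : N) (Y D S : N[X]) (x : N) : Fin 5 → N :=
  toS P l (aj * (Y.eval x / D.eval x) + x) (-bj * (Y.eval x / D.eval x) + (W - x))
    (Y.eval x / D.eval x) (S.eval x / D.eval x)

/-- the cycle of the surface on a section -/
noncomputable def secCyc {K : Type} [Field K] [Algebra ℂ K] (x₀ : Fin 5 → K) (l aj bj W : N)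
    (Y D S : N[X]) : (K →ₐ[ℂ] N) →₀ ℤ :=
  ((secP P l aj bj W Y D S).roots.map fun x =>
    H160.Z2Irr.pt x₀ (secPt P l aj bj W Y D S x)).sum

theorem eval_secP (l aj bj W : N) (Y D S : N[X]) (z : N) : (secP P l aj bj W Y D S).eval z =
    secF P l aj bj W z (Y.eval z) (D.eval z) (S.eval z) := by
  have h := map_secF P ((aeval z).restrictScalars ℂ : N[X] →ₐ[ℂ] N) (C l) (C aj) (C bj) (C W) X
    Y D S
  simp only [AlgHom.restrictScalars_apply, coe_aeval_eq_eval, eval_C, eval_X] at h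
  exact h

theorem comp_secF (l aj bj W : N) (x Y D S g : N[X]) :
    (secF P (C l) (C aj) (C bj) (C W) x Y D S).comp g =
      secF P (C l) (C aj) (C bj) (C W) (x.comp g) (Y.comp g) (D.comp g) (S.comp g) := by
  have h := map_secF P ((aeval g).restrictScalars ℂ : N[X] →ₐ[ℂ] N[X]) (C l) (C aj) (C bj)
    (C W) x Y D S
  simp only [AlgHom.restrictScalars_apply, aeval_C, ← comp_eq_aeval,
    Polynomial.algebraMap_eq] at h
  exact h

variable {P} {N' : Type} [Field N'] [Algebra ℂ N'] (f : N →ₐ[ℂ] N')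

theorem map_secP (l aj bj W : N) (Y D S : N[X]) :
    (secP P l aj bj W Y D S).map (f : N →+* N') =
      secP P (f l) (f aj) (f bj) (f W) (Y.map (f : N →+* N')) (D.map (f : N →+* N'))
        (S.map (f : N →+* N')) := by
  have h := map_secF P (Polynomial.mapAlgHom f) (C l) (C aj) (C bj) (C W) X Y D S
  simp only [coe_mapAlgHom, map_C, map_X, RingHom.coe_coe] at h
  exact h

theorem map_secCyc [IsAlgClosed N] {K : Type} [Field K] [Algebra ℂ K] {x₀ : Fin 5 → K}
    (hx : H160.Z2Irr.IsFF P x₀) (l aj bj W : N) (Y D S : N[X]) :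
    Finsupp.mapDomain (fun φ : K →ₐ[ℂ] N => f.comp φ) (secCyc P x₀ l aj bj W Y D S) =
      secCyc P x₀ (f l) (f aj) (f bj) (f W) (Y.map (f : N →+* N')) (D.map (f : N →+* N'))
        (S.map (f : N →+* N')) := by
  unfold secCyc
  rw [← map_secP]
  refine sum_roots_map f _ _ _ fun r _ => ?_
  rw [map_pt_all hx]
  congr 1
  funext j
  unfold secPt
  rw [H55Z.map_toS]
  have e : ∀ Z : N[X], (Z.map (f : N →+* N')).eval (f r) = f (Z.eval r) := by
    intro Z
    rw [eval_map]
    exact eval₂_at_apply (f : N →+* N') r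
  rw [e, e, e]
  simp only [map_add, map_mul, map_div₀, map_neg, map_sub]

end field

section lift

variable {N N₁ : Type} [Field N] [Algebra ℂ N] [Field N₁] [Algebra ℂ N₁]
  [Algebra N N₁] [IsScalarTower ℂ N N₁] {V : Plc N N₁} (P : Par)

theorem exists_lift {F : N₁[X]} {F₀ : N[X]} (h : PVal V F F₀) : ∃ G : (Pr V)[X],
    G.map (fs V : Pr V →+* N₁) = F ∧ G.map (sn V : Pr V →+* N) = F₀ := by
  refine ⟨∑ i ∈ Finset.range (max F.natDegree F₀.natDegree + 1),
    monomial i (H55Z.mk (h i)), ?_, ?_⟩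
  · rw [Polynomial.map_sum]
    conv_rhs => rw [F.as_sum_range' (max F.natDegree F₀.natDegree + 1)
      (Nat.lt_succ_of_le (le_max_left _ _))]
    refine Finset.sum_congr rfl fun i _ => ?_
    rw [map_monomial]
    rfl
  · rw [Polynomial.map_sum]
    conv_rhs => rw [F₀.as_sum_range' (max F.natDegree F₀.natDegree + 1)
      (Nat.lt_succ_of_le (le_max_right _ _))]
    refine Finset.sum_congr rfl fun i _ => ?_
    rw [map_monomial]
    rfl

theorem pval_secF {l₁ aj₁ bj₁ W₁ : N₁} {l aj bj W : N} (hl : V.Val l₁ l) (ha : V.Val aj₁ aj)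
    (hb : V.Val bj₁ bj) (hW : V.Val W₁ W) {x₁ Y₁ D₁ S₁ : N₁[X]} {x Y D S : N[X]}
    (hx : PVal V x₁ x) (hY : PVal V Y₁ Y) (hD : PVal V D₁ D) (hS : PVal V S₁ S) :
    PVal V (secF P (C l₁) (C aj₁) (C bj₁) (C W₁) x₁ Y₁ D₁ S₁)
      (secF P (C l) (C aj) (C bj) (C W) x Y D S) := by
  obtain ⟨x', rfl, rfl⟩ := exists_lift hx
  obtain ⟨Y', rfl, rfl⟩ := exists_lift hY
  obtain ⟨D', rfl, rfl⟩ := exists_lift hD
  obtain ⟨S', rfl, rfl⟩ := exists_lift hS
  have key := pval_pr (V := V) (secF P (C (H55Z.mk hl)) (C (H55Z.mk ha)) (C (H55Z.mk hb))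
    (C (H55Z.mk hW)) x' Y' D' S')
  have h1 := map_secF P (Polynomial.mapAlgHom (fs V)) (C (H55Z.mk hl)) (C (H55Z.mk ha))
    (C (H55Z.mk hb)) (C (H55Z.mk hW)) x' Y' D' S'
  have h2 := map_secF P (Polynomial.mapAlgHom (sn V)) (C (H55Z.mk hl)) (C (H55Z.mk ha))
    (C (H55Z.mk hb)) (C (H55Z.mk hW)) x' Y' D' S'
  simp only [coe_mapAlgHom, map_C, RingHom.coe_coe, fs_mk, sn_mk] at h1 h2
  rw [h1, h2] at key
  exact key

theorem val_secF {l₁ aj₁ bj₁ W₁ x₁ Y₁ D₁ S₁ : N₁} {l aj bj W x Y D S : N} (hl : V.Val l₁ l)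
    (ha : V.Val aj₁ aj) (hb : V.Val bj₁ bj) (hW : V.Val W₁ W) (hx : V.Val x₁ x)
    (hY : V.Val Y₁ Y) (hD : V.Val D₁ D) (hS : V.Val S₁ S) :
    V.Val (secF P l₁ aj₁ bj₁ W₁ x₁ Y₁ D₁ S₁) (secF P l aj bj W x Y D S) := by
  have h1 := map_secF P (fs V) (H55Z.mk hl) (H55Z.mk ha) (H55Z.mk hb) (H55Z.mk hW)
    (H55Z.mk hx) (H55Z.mk hY) (H55Z.mk hD) (H55Z.mk hS)
  have h2 := map_secF P (sn V) (H55Z.mk hl) (H55Z.mk ha) (H55Z.mk hb) (H55Z.mk hW)
    (H55Z.mk hx) (H55Z.mk hY) (H55Z.mk hD) (H55Z.mk hS)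
  have key := val_pr (V := V) (secF P (H55Z.mk hl) (H55Z.mk ha) (H55Z.mk hb) (H55Z.mk hW)
    (H55Z.mk hx) (H55Z.mk hY) (H55Z.mk hD) (H55Z.mk hS))
  rw [h1, h2] at key
  exact key

end lift

end Vale.Agent.P297.H777.Z2
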