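import Vale.Agent.P297.H777.Z2.Spec

/-!
General numerical Godeaux surfaces with torsion of order two: the degeneration of the sections over
the lines through a node to a section and two lines.
-/

set_option linter.unusedSectionVars false
set_option linter.unusedVariables false
set_option linter.style.haveILetI false
set_option linter.unusedSimpArgs false

open Polynomial

namespace Vale.Agent.P297.H777.Z2

open Vale.Agent.P297 Vale.Agent.P297.Gen Vale.Agent.P297.H72 Vale.Agent.P297.H637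
open Vale.Agent.P297.H160.Z2Irr Vale.Agent.P297.Z2 Vale.Agent.P297.H55Z

section dat

variable {N : Type} [Field N] [Algebra ℂ N]

/-- the equation of the surface on the line `c` of the plane through the node -/
noncomputable def linP (P : Par) (l aj bj W c σ σ' : N) : N[X] :=
  tPhi P (C l) (C aj * X + C c) (C (-bj) * X + C (W - c)) X (C σ * X + C σ')

/-- The data of a degenerate section: a section `y = η / δ`, `Sigma = ς / δ`, and two lines which
meet it. -/
structure SecDat (P : Par) (l aj bj W : N) (s : Finset N) (η ς : N[X]) (δ : N) (σ σ' : N → N) :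
    Prop where
  hd : bj - aj = 1 - l
  δ0 : δ ≠ 0
  card : s.card = 2
  bdeg : (secP P l aj bj W η (C δ) ς).natDegree = 9
  bgood : ∀ a, (secP P l aj bj W η (C δ) ς).eval a = 0 →
    H55Z.Good P l (aj * (η.eval a / δ) + a) (-bj * (η.eval a / δ) + (W - a)) (η.eval a / δ)
      (ς.eval a / δ)
  ldeg : ∀ c ∈ s, (linP P l aj bj W c (σ c) (σ' c)).natDegree = 9
  lgood : ∀ c ∈ s, ∀ y, (linP P l aj bj W c (σ c) (σ' c)).eval y = 0 →
    H55Z.Good P l (aj * y + c) (-bj * y + (W - c)) y (σ c * y + σ' c)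
  meet : ∀ c ∈ s, ς.eval c = σ c * η.eval c + σ' c * δ

theorem eval_linP (P : Par) (l aj bj W c σ σ' y : N) : (linP P l aj bj W c σ σ').eval y =
    tPhi P l (aj * y + c) (-bj * y + (W - c)) y (σ * y + σ') := by
  unfold linP
  rw [eval_tPhi]
  simp only [eval_add, eval_mul, eval_C, eval_X]

end dat

section spec

variable {K N N₁ : Type} [Field K] [Algebra ℂ K] [Field N] [Algebra ℂ N] [IsAlgClosed N]
  [Field N₁] [Algebra ℂ N₁] [Algebra N N₁] [IsScalarTower ℂ N N₁] [IsAlgClosed N₁]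
  {V : Plc N N₁} {P : Par} {x₀ : Fin 5 → K}

/-- A polynomial in a neighbourhood of a cluster. -/
theorem comp_cluster (φ : N →+* N₁) (ζ Q : N[X]) (Z₁ : N₁[X]) (c : N) (ε : N₁) :
    (((X - C c) * Q * ζ).map φ + C ε * Z₁).comp (C (φ c) + C ε * X) =
      C ε * (((Q * ζ).map φ).comp (C (φ c) + C ε * X) * X + Z₁.comp (C (φ c) + C ε * X)) := by
  simp only [Polynomial.map_mul, Polynomial.map_sub, map_X, map_C, add_comp, mul_comp, sub_comp,
    X_comp, C_comp]
  ring

theorem pval_cluster {ε : N₁} (hε : V.Val ε 0) (Q : N[X]) {Z₁ : N₁[X]} {Z₁₀ : N[X]}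
    (hZ : PVal V Z₁ Z₁₀) (c : N) :
    PVal V ((Q.map (algebraMap N N₁)).comp (C (algebraMap N N₁ c) + C ε * X) * X +
      Z₁.comp (C (algebraMap N N₁ c) + C ε * X)) (C (Q.eval c) * X + C (Z₁₀.eval c)) := by
  have hg : PVal V (C (algebraMap N N₁ c) + C ε * X) (C c) := by
    have h1 := (PVal.C (V.val_const c)).add ((PVal.C hε).mul (PVal.X (P := V)))
    rwa [C_0, zero_mul, add_zero] at h1
  have h1 := (((PVal.map (P := V) Q).comp hg).mul (PVal.X (P := V))).add (hZ.comp hg)
  rwa [comp_C, comp_C] at h1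

/-- **The degeneration of a family of sections to a section and two lines.** -/
theorem spec {l aj bj W : N} {s : Finset N} {η ς : N[X]} {δ : N} {σ σ' : N → N}
    (hx : H160.Z2Irr.IsFF P x₀) (h : SecDat P l aj bj W s η ς δ σ σ') {ε : N₁}
    (hε : V.Val ε 0) (hε0 : ε ≠ 0) {Y₁ D₁ S₁ Y D S : N₁[X]} {Y₁₀ D₁₀ S₁₀ : N[X]}
    (vY : PVal V Y₁ Y₁₀) (vD : PVal V D₁ D₁₀) (vS : PVal V S₁ S₁₀)
    (eY : Y = ((∏ c ∈ s, (X - C c)) * η).map (algebraMap N N₁) + C ε * Y₁)
    (eD : D = ((∏ c ∈ s, (X - C c)) * C δ).map (algebraMap N N₁) + C ε * D₁)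
    (eS : S = ((∏ c ∈ s, (X - C c)) * ς).map (algebraMap N N₁) + C ε * S₁)
    (dY : Y.natDegree ≤ 3) (dD : D.natDegree ≤ 2) (dS : S.natDegree ≤ 3)
    (hB : ∀ z, D.eval z ≠ 0 → (S.eval z / D.eval z) ^ 2 =
      tB P (algebraMap N N₁ l) (algebraMap N N₁ aj * (Y.eval z / D.eval z) + z)
        (-(algebraMap N N₁ bj) * (Y.eval z / D.eval z) + (algebraMap N N₁ W - z))
        (Y.eval z / D.eval z))
    (hS1 : ∀ c ∈ s, S₁₀.eval c = σ c * Y₁₀.eval c + σ' c * D₁₀.eval c)
    (hdet : ∀ c ∈ s, η.eval c * D₁₀.eval c - δ * Y₁₀.eval c ≠ 0) :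
    (secCyc P x₀ (algebraMap N N₁ l) (algebraMap N N₁ aj) (algebraMap N N₁ bj)
      (algebraMap N N₁ W) Y D S,
      secCyc P x₀ l aj bj W η (C δ) ς +
        ∑ c ∈ s, ncyc P x₀ l aj bj c (W - c) (σ c) (σ' c)) ∈ SpecC K V := by
  classical
  set φ := algebraMap N N₁ with hφ
  set T : N[X] := ∏ c ∈ s, (X - C c) with hT
  have hδ := h.δ0
  have hd := h.hd
  have hd1 : φ bj - φ aj = 1 - φ l := by
    rw [← map_sub, hd, map_sub, map_one]
  have hdC : (C bj - C aj : N[X]) = 1 - C l := by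
    rw [← C_sub, hd, C_sub, C_1]
  have hdC1 : (C (φ bj) - C (φ aj) : N₁[X]) = 1 - C (φ l) := by
    rw [← C_sub, hd1, C_sub, C_1]
  have hTm : T.Monic := monic_prod_of_monic _ _ fun c _ => monic_X_sub_C c
  have hTd : T.natDegree = 2 := by
    rw [hT, natDegree_prod_of_monic _ _ fun c _ => monic_X_sub_C c]
    simp only [natDegree_X_sub_C, Finset.sum_const, smul_eq_mul, mul_one, h.card]
  have hCδ : (C δ : N[X]) ≠ 0 := C_ne_zero.2 hδ
  -- values of the sections
  have pY : PVal V Y (T * η) := by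
    have h1 := (PVal.map (P := V) (T * η)).add ((PVal.C hε).mul vY)
    rw [C_0, zero_mul, add_zero] at h1
    rw [eY]
    exact h1
  have pD : PVal V D (T * C δ) := by
    have h1 := (PVal.map (P := V) (T * C δ)).add ((PVal.C hε).mul vD)
    rw [C_0, zero_mul, add_zero] at h1
    rw [eD]
    exact h1
  have pS : PVal V S (T * ς) := by
    have h1 := (PVal.map (P := V) (T * ς)).add ((PVal.C hε).mul vS)
    rw [C_0, zero_mul, add_zero] at h1
    rw [eS]
    exact h1
  have hD2 : D.natDegree = 2 := by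
    refine le_antisymm dD (le_natDegree_of_ne_zero ?_)
    have h1 := pD 2
    refine h1.ne_zero ?_
    rw [coeff_mul_C, ← hTd, hTm.coeff_natDegree, one_mul]
    exact hδ
  -- the polynomials
  set F : N₁[X] := secP P (φ l) (φ aj) (φ bj) (φ W) Y D S with hF
  set F₀ : N[X] := secP P l aj bj W (T * η) (T * C δ) (T * ς) with hF₀
  set G₀ : N[X] := secP P l aj bj W η (C δ) ς with hG₀
  have pF : PVal V F F₀ := pval_secF P (V.val_const _) (V.val_const _) (V.val_const _)
    (V.val_const _) PVal.X pY pD pS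
  have eF₀ : F₀ = T ^ 9 * G₀ := by
    rw [hF₀, hG₀]
    exact secF_smul P hdC _ _ _ _ hCδ hTm.ne_zero
  have hG0 : G₀ ≠ 0 := by
    intro h0
    have h1 := h.bdeg
    rw [← hG₀, h0, natDegree_zero] at h1
    omega
  have hF00 : F₀ ≠ 0 := by
    rw [eF₀]
    exact mul_ne_zero (pow_ne_zero _ hTm.ne_zero) hG0
  have hF₀d : F₀.natDegree = 27 := by
    rw [eF₀, natDegree_mul (pow_ne_zero _ hTm.ne_zero) hG0, natDegree_pow, hTd, hG₀, h.bdeg]
  have hFd : F.natDegree = F₀.natDegree := by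
    refine le_antisymm ?_ (le_natDegree_of_ne_zero ?_)
    · rw [hF₀d]
      exact natDegree_secF P hd1 dY hD2 dS
    · have h1 := pF F₀.natDegree
      exact h1.ne_zero (by rw [coeff_natDegree]; exact leadingCoeff_ne_zero.2 hF00)
  -- the clusters
  let Q : N → N[X] := fun c => ∏ b ∈ s.erase c, (X - C b)
  have hQ : ∀ c ∈ s, T = (X - C c) * Q c := fun c hc =>
    (Finset.mul_prod_erase s _ hc).symm
  have hQc : ∀ c ∈ s, (Q c).eval c ≠ 0 := by
    intro c hc
    change (∏ b ∈ s.erase c, (X - C b)).eval c ≠ 0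
    rw [eval_prod]
    refine Finset.prod_ne_zero_iff.2 fun b hb => ?_
    rw [eval_sub, eval_X, eval_C]
    exact sub_ne_zero.2 (Finset.ne_of_mem_erase hb).symm
  let g : N → N₁[X] := fun c => C (φ c) + C ε * X
  have pg : ∀ c, PVal V (g c) (C c) := by
    intro c
    have h1 := (PVal.C (V.val_const c)).add ((PVal.C hε).mul (PVal.X (P := V)))
    rwa [C_0, zero_mul, add_zero] at h1
  let Yc : N → N₁[X] := fun c => ((Q c * η).map φ).comp (g c) * X + Y₁.comp (g c)
  let Dc : N → N₁[X] := fun c => ((Q c * C δ).map φ).comp (g c) * X + D₁.comp (g c)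
  let Sc : N → N₁[X] := fun c => ((Q c * ς).map φ).comp (g c) * X + S₁.comp (g c)
  let α : N → N := fun c => (Q c).eval c * η.eval c
  let γ : N → N := fun c => (Q c).eval c * δ
  let β : N → N := fun c => Y₁₀.eval c
  let δ' : N → N := fun c => D₁₀.eval c
  have vYc : ∀ c, PVal V (Yc c) (C (α c) * X + C (β c)) := by
    intro c
    have h1 := pval_cluster hε (Q c * η) vY c
    rwa [eval_mul] at h1
  have vDc : ∀ c, PVal V (Dc c) (C (γ c) * X + C (δ' c)) := by
    intro c
    have h1 := pval_cluster hε (Q c * C δ) vD c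
    rwa [eval_mul, eval_C] at h1
  have vSc : ∀ c, PVal V (Sc c) (C ((Q c).eval c * ς.eval c) * X + C (S₁₀.eval c)) := by
    intro c
    have h1 := pval_cluster hε (Q c * ς) vS c
    rwa [eval_mul] at h1
  have cY : ∀ c ∈ s, Y.comp (g c) = C ε * Yc c := by
    intro c hc
    rw [eY, hQ c hc]
    exact comp_cluster φ η (Q c) Y₁ c ε
  have cD : ∀ c ∈ s, D.comp (g c) = C ε * Dc c := by
    intro c hc
    rw [eD, hQ c hc]
    exact comp_cluster φ (C δ) (Q c) D₁ c ε
  have cS : ∀ c ∈ s, S.comp (g c) = C ε * Sc c := by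
    intro c hc
    rw [eS, hQ c hc]
    exact comp_cluster φ ς (Q c) S₁ c ε
  have hγ : ∀ c ∈ s, γ c ≠ 0 := fun c hc => mul_ne_zero (hQc c hc) hδ
  have hDc0 : ∀ c ∈ s, Dc c ≠ 0 := by
    intro c hc h0
    have h1 := vDc c 1
    rw [h0, coeff_zero] at h1
    have h2 : (C (γ c) * X + C (δ' c) : N[X]).coeff 1 = γ c := by
      simp [coeff_X_one, coeff_C]
    rw [h2] at h1
    exact hγ c hc (h1.unique V.val_zero)
  let Fc : N → N₁[X] := fun c =>
    secF P (C (φ l)) (C (φ aj)) (C (φ bj)) (C (φ W)) (g c) (Yc c) (Dc c) (Sc c)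
  let Fc₀ : N → N[X] := fun c => secF P (C l) (C aj) (C bj) (C W) (C c)
    (C (α c) * X + C (β c)) (C (γ c) * X + C (δ' c)) (C ((Q c).eval c * ς.eval c) * X +
      C (S₁₀.eval c))
  have pFc : ∀ c, PVal V (Fc c) (Fc₀ c) := fun c => pval_secF P (V.val_const _) (V.val_const _)
    (V.val_const _) (V.val_const _) (pg c) (vYc c) (vDc c) (vSc c)
  have hcomp : ∀ c ∈ s, F.comp (C (φ c) + C ε * X) = C (ε ^ 9) * Fc c := by
    intro c hc
    rw [hF]
    unfold secP
    rw [comp_secF]
    have h1 : (X : N₁[X]).comp (C (φ c) + C ε * X) = g c := X_comp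
    rw [h1]
    have h2 := cY c hc
    have h3 := cD c hc
    have h4 := cS c hc
    change Y.comp (C (φ c) + C ε * X) = _ at h2
    change D.comp (C (φ c) + C ε * X) = _ at h3
    change S.comp (C (φ c) + C ε * X) = _ at h4
    rw [h2, h3, h4, secF_smul P hdC1 _ _ _ _ (hDc0 c hc) (C_ne_zero.2 hε0), C_pow]
  -- the lines
  let L : N → N[X] := fun c => linP P l aj bj W c (σ c) (σ' c)
  have hL0 : ∀ c ∈ s, L c ≠ 0 := by
    intro c hc h0
    have h1 := h.ldeg c hc
    change (L c).natDegree = 9 at h1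
    rw [h0, natDegree_zero] at h1
    omega
  have hdet' : ∀ c ∈ s, α c * δ' c - β c * γ c ≠ 0 := by
    intro c hc
    have h1 := mul_ne_zero (hQc c hc) (hdet c hc)
    have h2 : α c * δ' c - β c * γ c =
        (Q c).eval c * (η.eval c * D₁₀.eval c - δ * Y₁₀.eval c) := by
      change (Q c).eval c * η.eval c * D₁₀.eval c - Y₁₀.eval c * ((Q c).eval c * δ) = _
      ring
    rw [h2]
    exact h1
  have hmob : ∀ c ∈ s, ∀ w, γ c * w + δ' c ≠ 0 → (Fc₀ c).eval w =
      (γ c * w + δ' c) ^ 9 * (L c).eval ((α c * w + β c) / (γ c * w + δ' c)) := by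
    intro c hc w hw
    have e1 : (Fc₀ c).eval w = secF P l aj bj W c (α c * w + β c) (γ c * w + δ' c)
        ((Q c).eval c * ς.eval c * w + S₁₀.eval c) := by
      have h1 := map_secF P ((aeval w).restrictScalars ℂ : N[X] →ₐ[ℂ] N) (C l) (C aj) (C bj)
        (C W) (C c) (C (α c) * X + C (β c)) (C (γ c) * X + C (δ' c))
        (C ((Q c).eval c * ς.eval c) * X + C (S₁₀.eval c))
      simp only [AlgHom.restrictScalars_apply, coe_aeval_eq_eval, eval_C, eval_X, eval_add,
        eval_mul] at h1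
      exact h1
    rw [e1, secF_eq P hd _ _ _ _ hw, eval_linP]
    congr 2
    rw [div_eq_iff hw, hS1 c hc, h.meet c hc]
    change _ = (σ c * ((α c * w + β c) / (γ c * w + δ' c)) + σ' c) * (γ c * w + δ' c)
    rw [add_mul, mul_assoc (σ c), div_mul_cancel₀ _ hw]
    change _ = σ c * ((Q c).eval c * η.eval c * w + Y₁₀.eval c) +
      σ' c * ((Q c).eval c * δ * w + D₁₀.eval c)
    ring
  have hmf := fun c hc => roots_moebius_full (Q := L c) (R := Fc₀ c) (hL0 c hc) (h.ldeg c hc)
    (hdet' c hc) (hmob c hc)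
  -- the functions
  let f : N₁ → ((K →ₐ[ℂ] N₁) →₀ ℤ) := fun z =>
    H160.Z2Irr.pt x₀ (secPt P (φ l) (φ aj) (φ bj) (φ W) Y D S z)
  let f₀ : N → ((K →ₐ[ℂ] N) →₀ ℤ) := fun a =>
    H160.Z2Irr.pt x₀ (secPt P l aj bj W η (C δ) ς a)
  let q : N → N → ((K →ₐ[ℂ] N) →₀ ℤ) := fun c y =>
    H160.Z2Irr.pt x₀ (toS P l (aj * y + c) (-bj * y + (W - c)) y (σ c * y + σ' c))
  let fc : N → N → ((K →ₐ[ℂ] N) →₀ ℤ) := fun c w => q c ((α c * w + β c) / (γ c * w + δ' c))
  -- the equation at a root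
  have hPhi : ∀ z, F.eval z = 0 → D.eval z ≠ 0 →
      tPhi P (φ l) (φ aj * (Y.eval z / D.eval z) + z) (-(φ bj) * (Y.eval z / D.eval z) +
        (φ W - z)) (Y.eval z / D.eval z) (S.eval z / D.eval z) = 0 := by
    intro z hz hDz
    rw [hF, eval_secP, secF_eq P hd1 _ _ _ _ hDz] at hz
    exact (mul_eq_zero.1 hz).resolve_left (pow_ne_zero _ hDz)
  have hspec : ∀ z (a y S' : N), F.eval z = 0 → D.eval z ≠ 0 → V.Val z a →
      V.Val (Y.eval z / D.eval z) y → V.Val (S.eval z / D.eval z) S' →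
      H55Z.Good P l (aj * y + a) (-bj * y + (W - a)) y S' →
      (f z, H160.Z2Irr.pt x₀ (toS P l (aj * y + a) (-bj * y + (W - a)) y S')) ∈ SpecC K V := by
    intro z a y S' hz hDz hza hy hS' hg
    have h1 : V.Val (φ aj * (Y.eval z / D.eval z) + z) (aj * y + a) :=
      ((V.val_const aj).mul hy).add hza
    have h2 : V.Val (-(φ bj) * (Y.eval z / D.eval z) + (φ W - z)) (-bj * y + (W - a)) :=
      (((V.val_const bj).neg).mul hy).add ((V.val_const W).sub hza)
    exact specC_toS hx (V.val_const l) h1 h2 hy hS' hg (hB z hDz) (hPhi z hz hDz)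
  have key := bl_full (K := K) (P := V) pF hF00 hFd s (fun _ => 9)
    (G₀ := G₀) (by rw [eF₀, Finset.prod_pow, mul_comm]) (fun _ => ε) (fun _ _ => hε)
    (fun _ _ => hε0) Fc Fc₀ (fun _ => ε ^ 9) (fun _ _ => pow_ne_zero _ hε0)
    (fun c _ => pFc c) (fun c hc => (hmf c hc).1) (fun c hc => (hmf c hc).2.1) hcomp f f₀ fc
    ?_ ?_ ?_
  · have e1 : ∀ c ∈ s, (((Fc₀ c).roots.map (fc c)).sum + (9 - (Fc₀ c).natDegree) • f₀ c) =
        ncyc P x₀ l aj bj c (W - c) (σ c) (σ' c) := by
      intro c hc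
      obtain ⟨-, -, h3, -⟩ := hmf c hc
      have e2 : ncyc P x₀ l aj bj c (W - c) (σ c) (σ' c) = ((L c).roots.map (q c)).sum := by
        unfold ncyc Vale.Agent.P297.Z2.cyc
        change _ = (((linP P l aj bj W c (σ c) (σ' c)).roots).map (q c)).sum
        unfold linP
        congr 1
        refine Multiset.map_congr rfl fun y _ => ?_
        change _ = H160.Z2Irr.pt x₀ (toS P l (aj * y + c) (-bj * y + (W - c)) y
          (σ c * y + σ' c))
        simp only [eval_add, eval_mul, eval_C, eval_X]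
      rw [e2, h3, Multiset.map_add, Multiset.sum_add, Multiset.map_map, Multiset.map_replicate,
        Multiset.sum_replicate]
      congr 2
      change H160.Z2Irr.pt x₀ (secPt P l aj bj W η (C δ) ς c) =
        H160.Z2Irr.pt x₀ (toS P l (aj * (α c / γ c) + c) (-bj * (α c / γ c) + (W - c))
          (α c / γ c) (σ c * (α c / γ c) + σ' c))
      have e3 : α c / γ c = η.eval c / δ := mul_div_mul_left _ _ (hQc c hc)
      have e4 : σ c * (η.eval c / δ) + σ' c = ς.eval c / δ := by
        rw [eq_div_iff hδ, h.meet c hc, add_mul, mul_assoc, div_mul_cancel₀ _ hδ]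
      rw [e3, e4]
      unfold secPt
      rw [eval_C]
    rw [Finset.sum_congr rfl e1] at key
    exact key
  · -- outside of the clusters
    intro z a hz hza has hGa
    have hTa : T.eval a ≠ 0 := by
      rw [hT, eval_prod]
      refine Finset.prod_ne_zero_iff.2 fun b hb => ?_
      rw [eval_sub, eval_X, eval_C]
      refine sub_ne_zero.2 ?_
      rintro rfl
      exact has hb
    have v1 := pY.eval hza
    have v2 := pD.eval hza
    have v3 := pS.eval hza
    rw [eval_mul] at v1 v2 v3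
    rw [eval_C] at v2
    have h2 : T.eval a * δ ≠ 0 := mul_ne_zero hTa hδ
    have w1 := v1.div v2 h2
    have w3 := v3.div v2 h2
    rw [mul_div_mul_left _ _ hTa] at w1 w3
    have h3 := hspec z a _ _ hz (v2.ne_zero h2) hza w1 w3 (h.bgood a hGa)
    change (f z, H160.Z2Irr.pt x₀ (secPt P l aj bj W η (C δ) ς a)) ∈ SpecC K V
    unfold secPt
    rw [eval_C]
    exact h3
  · -- the finite part of the clusters
    intro c hc z w hz hw hFw
    have hw0 : γ c * w + δ' c ≠ 0 :=
      (hmf c hc).2.2.2 w ((mem_roots (hmf c hc).1).2 hFw)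
    set t := scl (φ c) ε z with ht
    have hzt : φ c + ε * t = z := scl_eq hε0 z
    have hza : V.Val z c := by
      have h1 := (V.val_const c).add (hε.mul hw)
      rw [zero_mul, add_zero] at h1
      rw [← hzt]
      exact h1
    have k1 : ∀ Z Zc : N₁[X], Z.comp (g c) = C ε * Zc → Z.eval z = ε * Zc.eval t := by
      intro Z Zc hZ
      have h1 := congrArg (eval t) hZ
      rw [eval_comp, eval_mul, eval_C] at h1
      have h2 : (g c).eval t = z := by
        change (C (φ c) + C ε * X).eval t = z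
        simp only [eval_add, eval_mul, eval_C, eval_X]
        exact hzt
      rw [h2] at h1
      exact h1
    have eY' := k1 Y _ (cY c hc)
    have eD' := k1 D _ (cD c hc)
    have eS' := k1 S _ (cS c hc)
    have v1 := (vYc c).eval hw
    have v2 := (vDc c).eval hw
    have v3 := (vSc c).eval hw
    simp only [eval_add, eval_mul, eval_C, eval_X] at v1 v2 v3
    have hDz : D.eval z ≠ 0 := by
      rw [eD']
      exact mul_ne_zero hε0 (v2.ne_zero hw0)
    have w1 := v1.div v2 hw0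
    have w3 := v3.div v2 hw0
    have u1 : Y.eval z / D.eval z = (Yc c).eval t / (Dc c).eval t := by
      rw [eY', eD', mul_div_mul_left _ _ hε0]
    have u3 : S.eval z / D.eval z = (Sc c).eval t / (Dc c).eval t := by
      rw [eS', eD', mul_div_mul_left _ _ hε0]
    have e5 : ((Q c).eval c * ς.eval c * w + S₁₀.eval c) / (γ c * w + δ' c) =
        σ c * ((α c * w + β c) / (γ c * w + δ' c)) + σ' c := by
      rw [div_eq_iff hw0, hS1 c hc, h.meet c hc, add_mul, mul_assoc (σ c),
        div_mul_cancel₀ _ hw0]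
      change _ = σ c * ((Q c).eval c * η.eval c * w + Y₁₀.eval c) +
        σ' c * ((Q c).eval c * δ * w + D₁₀.eval c)
      ring
    rw [e5] at w3
    have hLy : (L c).eval ((α c * w + β c) / (γ c * w + δ' c)) = 0 := by
      have h1 := hmob c hc w hw0
      rw [hFw] at h1
      exact (mul_eq_zero.1 h1.symm).resolve_left (pow_ne_zero _ hw0)
    have hg := h.lgood c hc _ hLy
    exact hspec z c _ _ hz hDz hza (by rw [u1]; exact w1) (by rw [u3]; exact w3) hg
  · -- the infinite part of the clusters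
    intro c hc z hz hza ht0 htv
    set t := scl (φ c) ε z with ht
    have hzt : φ c + ε * t = z := scl_eq hε0 z
    have k1 : ∀ (ζ : N[X]) (Z Z₁ : N₁[X]) (Z₁₀ : N[X]), PVal V Z₁ Z₁₀ →
        Z = (T * ζ).map φ + C ε * Z₁ → ∃ b, Z.eval z = ε * t * b ∧
          V.Val b ((Q c).eval c * ζ.eval c) := by
      intro ζ Z Z₁ Z₁₀ hZ₁ hZ
      refine ⟨((Q c * ζ).map φ).eval z + Z₁.eval z * t⁻¹, ?_, ?_⟩
      · rw [hZ, hQ c hc]
        simp only [Polynomial.map_mul, Polynomial.map_sub, map_X, map_C, eval_add, eval_mul,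
          eval_sub, eval_X, eval_C]
        have h1 : z - φ c = ε * t := by rw [← hzt]; ring
        rw [h1]
        field_simp
      · have h1 := (PVal.map (P := V) (Q c * ζ)).eval hza
        have h2 := h1.add ((hZ₁.eval hza).mul htv)
        rwa [mul_zero, add_zero, eval_mul] at h2
    obtain ⟨b1, hb1, vb1⟩ := k1 η Y Y₁ Y₁₀ vY eY
    obtain ⟨b2, hb2, vb2⟩ := k1 (C δ) D D₁ D₁₀ vD eD
    obtain ⟨b3, hb3, vb3⟩ := k1 ς S S₁ S₁₀ vS eS
    rw [eval_C] at vb2
    have h2 : (Q c).eval c * δ ≠ 0 := hγ c hc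
    have hεt : ε * t ≠ 0 := mul_ne_zero hε0 ht0
    have hb20 : b2 ≠ 0 := vb2.ne_zero h2
    have hDz : D.eval z ≠ 0 := by
      rw [hb2]
      exact mul_ne_zero hεt hb20
    have w1 := vb1.div vb2 h2
    have w3 := vb3.div vb2 h2
    rw [mul_div_mul_left _ _ (hQc c hc)] at w1 w3
    have hGc : G₀.eval c = 0 := by
      have h3 : secF P (φ l) (φ aj) (φ bj) (φ W) z b1 b2 b3 = 0 := by
        have h4 := hz
        rw [hF, eval_secP, hb1, hb2, hb3, secF_smul P hd1 _ _ _ _ hb20 hεt] at h4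
        exact (mul_eq_zero.1 h4).resolve_left (pow_ne_zero _ hεt)
      have h5 := val_secF P (V.val_const l) (V.val_const aj) (V.val_const bj) (V.val_const W)
        hza vb1 vb2 vb3
      rw [← hφ, h3] at h5
      have h6 := h5.unique V.val_zero
      rw [secF_smul P hd _ _ _ _ hδ (hQc c hc)] at h6
      have h7 := (mul_eq_zero.1 h6).resolve_left (pow_ne_zero _ (hQc c hc))
      rw [hG₀, eval_secP, eval_C]
      exact h7
    have h3 := hspec z c _ _ hz hDz hza (by rw [hb1, hb2, mul_div_mul_left _ _ hεt]; exact w1)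
      (by rw [hb3, hb2, mul_div_mul_left _ _ hεt]; exact w3) (h.bgood c hGc)
    change (f z, H160.Z2Irr.pt x₀ (secPt P l aj bj W η (C δ) ς c)) ∈ SpecC K V
    unfold secPt
    rw [eval_C]
    exact h3

end spec

end Vale.Agent.P297.H777.Z2
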